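import Crest.Agent.R98.Defs

/-! Row 98: moments of ball masses and of window masses. -/

set_option autoImplicit false

namespace Crest.Agent.R98

open MeasureTheory Finset Crest.AnalysisR
open scoped ENNReal

/-- Moment of the masses of balls. -/
noncomputable def frT (ν : Measure ℝ) (θ s : ℝ) : ℝ≥0∞ :=
  ∫⁻ x, ν (Metric.closedBall x s) ^ θ ∂ν

/-- Moment of the masses of windows. -/
noncomputable def frS (ν : Measure ℝ) (θ s : ℝ) : ℝ≥0∞ :=
  ∫⁻ y, ν (Set.Ioc (y - s) y) ^ (1 + θ)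

theorem fr_meas_ball (ν : Measure ℝ) [SFinite ν] (s : ℝ) :
    Measurable fun x => ν (Metric.closedBall x s) := by
  have h : MeasurableSet {z : ℝ × ℝ | dist z.2 z.1 ≤ s} :=
    measurableSet_le (by fun_prop) measurable_const
  exact measurable_measure_prodMk_left h

theorem fr_meas_set (s : ℝ) : MeasurableSet {z : ℝ × ℝ | z.1 - s < z.2 ∧ z.2 ≤ z.1} :=
  (measurableSet_lt (measurable_fst.sub_const s) measurable_snd).inter
    (measurableSet_le measurable_snd measurable_fst)

theorem fr_meas_win (ν : Measure ℝ) [SFinite ν] (s : ℝ) :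
    Measurable fun y => ν (Set.Ioc (y - s) y) := by
  have h := fr_meas_set s
  exact measurable_measure_prodMk_left h

theorem fr_tonelli (ν : Measure ℝ) [SFinite ν] (s : ℝ) {ψ : ℝ → ℝ≥0∞} (hψ : Measurable ψ) :
    ∫⁻ y, ν (Set.Ioc (y - s) y) * ψ y = ∫⁻ x, (∫⁻ y in Set.Ico x (x + s), ψ y) ∂ν := by
  have h := fr_meas_set s
  have hF : Measurable (Function.uncurry fun y x : ℝ =>
      ({z : ℝ × ℝ | z.1 - s < z.2 ∧ z.2 ≤ z.1}).indicator (fun z => ψ z.1) (y, x)) :=
    (hψ.comp measurable_fst).indicator h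
  have e1 : ∀ y, ν (Set.Ioc (y - s) y) * ψ y = ∫⁻ x,
      ({z : ℝ × ℝ | z.1 - s < z.2 ∧ z.2 ≤ z.1}).indicator (fun z => ψ z.1) (y, x) ∂ν := by
    intro y
    rw [mul_comm, ← lintegral_indicator_const measurableSet_Ioc]
    rfl
  simp only [e1]
  rw [lintegral_lintegral_swap hF.aemeasurable]
  refine lintegral_congr fun x => ?_
  rw [← lintegral_indicator measurableSet_Ico]
  refine lintegral_congr fun y => ?_
  simp only [Set.indicator, Set.mem_ofPred_eq, Set.mem_Ico]
  congr 1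
  apply propext
  constructor
  · rintro ⟨h1, h2⟩; exact ⟨h2, by linarith⟩
  · rintro ⟨h1, h2⟩; exact ⟨by linarith, h1⟩

theorem fr_pow_split (a : ℝ≥0∞) {θ : ℝ} (hθ : 0 ≤ θ) : a ^ (1 + θ) = a * a ^ θ := by
  rw [ENNReal.rpow_add_of_nonneg _ _ zero_le_one hθ, ENNReal.rpow_one]

theorem frS_le (ν : Measure ℝ) [SFinite ν] {θ : ℝ} (hθ : 0 ≤ θ) (s : ℝ) :
    frS ν θ s ≤ ENNReal.ofReal s * frT ν θ s := by
  unfold frS frT
  simp only [fr_pow_split _ hθ]
  rw [fr_tonelli ν s ((fr_meas_win ν s).pow_const θ),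
    ← lintegral_const_mul _ ((fr_meas_ball ν s).pow_const θ)]
  refine lintegral_mono fun x => ?_
  calc ∫⁻ y in Set.Ico x (x + s), ν (Set.Ioc (y - s) y) ^ θ
      ≤ ∫⁻ _y in Set.Ico x (x + s), ν (Metric.closedBall x s) ^ θ := by
        refine setLIntegral_mono' measurableSet_Ico fun y hy => ?_
        refine ENNReal.rpow_le_rpow (measure_mono fun z hz => ?_) hθ
        rw [Real.closedBall_eq_Icc]
        exact ⟨by linarith [hy.1, hz.1], by linarith [hy.2, hz.2]⟩
    _ = _ := by simp [mul_comm]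

theorem fr_pm {A : Type*} (J : Finset A) {θ : ℝ} (hθ : 0 ≤ θ) (w f : A → ℝ≥0∞) :
    (∑ i ∈ J, w i * f i) ^ (1 + θ) ≤ (∑ i ∈ J, w i) ^ θ * ∑ i ∈ J, w i * f i ^ (1 + θ) := by
  have hp : (0 : ℝ) < 1 + θ := by linarith
  have h := ENNReal.rpow_le_rpow (ENNReal.inner_le_weight_mul_Lp_of_nonneg J
    (p := 1 + θ) (by linarith) w f) hp.le
  rw [ENNReal.mul_rpow_of_nonneg _ _ hp.le, ← ENNReal.rpow_mul, ← ENNReal.rpow_mul,
    inv_mul_cancel₀ hp.ne', ENNReal.rpow_one] at h
  have e : (1 - (1 + θ)⁻¹) * (1 + θ) = θ := by field_simp; ring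
  rwa [e] at h

theorem frT_le (ν : Measure ℝ) [SFinite ν] {θ : ℝ} (hθ : 0 < θ) (s : ℝ) :
    ENNReal.ofReal s * frT ν θ s ≤ 3 ^ θ * frS ν θ s := by
  have hG := fr_meas_win ν s
  set G : ℝ → ℝ≥0∞ := fun y => ν (Set.Ioc (y - s) y) with hGdef
  set b : ℝ → ℝ≥0∞ := fun y => G (y - s) + G y + G (y + s) with hb
  have hbm : Measurable b :=
    ((hG.comp (measurable_id.sub_const s)).add hG).add (hG.comp (measurable_id.add_const s))
  have hp : (0 : ℝ) < 1 + θ := by linarith
  have h1 : ENNReal.ofReal s * frT ν θ s ≤ ∫⁻ y, G y * b y ^ θ := by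
    unfold frT
    rw [fr_tonelli ν s (hbm.pow_const θ), ← lintegral_const_mul _ ((fr_meas_ball ν s).pow_const θ)]
    refine lintegral_mono fun x => ?_
    calc ENNReal.ofReal s * ν (Metric.closedBall x s) ^ θ
        = ∫⁻ _y in Set.Ico x (x + s), ν (Metric.closedBall x s) ^ θ := by simp [mul_comm]
      _ ≤ _ := by
        refine setLIntegral_mono' measurableSet_Ico fun y hy => ?_
        refine ENNReal.rpow_le_rpow ?_ hθ.le
        refine le_trans (measure_mono (t := Set.Ioc (y - s - s) (y - s) ∪ Set.Ioc (y - s) y ∪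
          Set.Ioc (y + s - s) (y + s)) fun z hz => ?_)
          ((measure_union_le _ _).trans (add_le_add (measure_union_le _ _) le_rfl))
        rw [Real.closedBall_eq_Icc] at hz
        rcases le_or_gt z (y - s) with h | h
        · exact Or.inl (Or.inl ⟨by linarith [hy.2, hz.1], h⟩)
        · rcases le_or_gt z y with h' | h'
          · exact Or.inl (Or.inr ⟨h, h'⟩)
          · exact Or.inr ⟨by linarith, by linarith [hy.1, hz.2]⟩
  have h2 : ∫⁻ y, b y ^ (1 + θ) ≤ 3 ^ (1 + θ) * frS ν θ s := by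
    have h3 : ∀ y, b y ^ (1 + θ) ≤
        3 ^ θ * (G (y - s) ^ (1 + θ) + G y ^ (1 + θ) + G (y + s) ^ (1 + θ)) := by
      intro y
      have := fr_pm (Finset.univ : Finset (Fin 3)) hθ.le (fun _ => 1) ![G (y - s), G y, G (y + s)]
      simpa [Fin.sum_univ_three] using this
    refine (lintegral_mono h3).trans (le_of_eq ?_)
    have hGp := hG.pow_const (1 + θ)
    have m1 : Measurable fun y => G (y - s) ^ (1 + θ) := hGp.comp (measurable_id.sub_const s)
    have m2 : Measurable fun y => G (y - s) ^ (1 + θ) + G y ^ (1 + θ) := m1.add hGp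
    have m3 : Measurable fun y => G (y - s) ^ (1 + θ) + G y ^ (1 + θ) + G (y + s) ^ (1 + θ) :=
      m2.add (hGp.comp (measurable_id.add_const s))
    rw [lintegral_const_mul _ m3, lintegral_add_left m2, lintegral_add_left m1,
      lintegral_sub_right_eq_self (fun y => G y ^ (1 + θ)) s,
      lintegral_add_right_eq_self (fun y => G y ^ (1 + θ)) s, fr_pow_split _ hθ.le]
    unfold frS
    ring
  have hc : (1 + θ).HolderConjugate ((1 + θ) / θ) := by
    rw [Real.holderConjugate_iff]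
    exact ⟨by linarith, by field_simp⟩
  have h4 := ENNReal.lintegral_mul_le_Lp_mul_Lq volume hc hG.aemeasurable
    (hbm.pow_const θ).aemeasurable
  have e1 : θ * ((1 + θ) / θ) = 1 + θ := by field_simp
  simp only [Pi.mul_apply, ← ENNReal.rpow_mul, e1] at h4
  refine h1.trans (h4.trans ?_)
  have h5 : (0 : ℝ) ≤ 1 / ((1 + θ) / θ) := by positivity
  refine (mul_le_mul_right (ENNReal.rpow_le_rpow h2 h5) _).trans (le_of_eq ?_)
  have e2 : (1 + θ) * (1 / ((1 + θ) / θ)) = θ := by field_simp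
  have e3 : 1 / (1 + θ) + 1 / ((1 + θ) / θ) = 1 := by field_simp
  rw [ENNReal.mul_rpow_of_nonneg _ _ h5, ← ENNReal.rpow_mul, e2, mul_left_comm]
  congr 1
  change frS ν θ s ^ _ * frS ν θ s ^ _ = _
  rw [← ENNReal.rpow_add_of_nonneg _ _ (by positivity) h5, e3, ENNReal.rpow_one]

theorem fr_submult {μ : Measure ℝ} [IsProbabilityMeasure μ] {A : Type} [Fintype A]
    {q a b : A → ℝ} (h : SS μ q a b) {M c s ρ θ : ℝ} (hM : μ {x | M < |x|} = 0)
    (hc : 0 < c) (hs : 0 < s) (hρ1 : ρ ≤ 1) (hθ : 0 < θ)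
    (ha : ∀ w, c * s ≤ |a w| ∧ |a w| ≤ s) :
    frS μ θ (s * ρ) ≤ ENNReal.ofReal (s * ρ) * (frT μ θ (ρ / c) * frT μ θ (2 * (2 * M + 1) * s)) := by
  classical
  set ν : A → Measure ℝ := fun w => μ.map (fun x => a w * x + b w) with hν
  have hae : ∀ᵐ x ∂μ, |x| ≤ M := by
    rw [ae_iff]
    simpa using hM
  have happ : ∀ S, μ S = ∑ w, ENNReal.ofReal (q w) * ν w S := by
    intro S
    conv_lhs => rw [h]
    rw [Measure.finsetSum_apply]
    rfl
  set τ : A → ℝ≥0∞ := fun w =>
    ∫⁻ z, μ (Metric.closedBall (a w * z + b w) (2 * (2 * M + 1) * s)) ^ θ ∂μ with hτ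
  have hτsum : ∑ w, ENNReal.ofReal (q w) * τ w = frT μ θ (2 * (2 * M + 1) * s) := by
    unfold frT
    have e : ∀ F : ℝ → ℝ≥0∞, Measurable F → ∫⁻ x, F x ∂μ =
        ∑ w, ENNReal.ofReal (q w) * ∫⁻ z, F (a w * z + b w) ∂μ := by
      intro F hF
      conv_lhs => rw [h]
      rw [lintegral_finsetSum_measure]
      refine Finset.sum_congr rfl fun w _ => ?_
      rw [lintegral_smul_measure, lintegral_map hF (meas_aff _ _), smul_eq_mul]
    exact (e _ ((fr_meas_ball μ _).pow_const θ)).symm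
  have hnear : ∀ y w, ν w (Set.Ioc (y - s * ρ) y) ≠ 0 → ∀ z, |z| ≤ M →
      |a w * z + b w - y| ≤ (2 * M + 1) * s := by
    intro y w hw z hz
    rw [hν, Measure.map_apply (meas_aff _ _) measurableSet_Ioc] at hw
    obtain ⟨x, hx1, hx2⟩ := Measure.exists_mem_of_measure_ne_zero_of_ae hw
      (ae_restrict_of_ae hae)
    have h1 : |a w * x + b w - y| ≤ s := by
      have : s * ρ ≤ s := mul_le_of_le_one_right hs.le hρ1
      rw [abs_le]
      exact ⟨by linarith [hx1.1], by linarith [hx1.2]⟩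
    have h2 : |a w * (z - x)| ≤ s * (2 * M) := by
      rw [abs_mul]
      exact mul_le_mul (ha w).2 ((abs_sub _ _).trans (by linarith)) (abs_nonneg _) hs.le
    have e : a w * z + b w - y = a w * (z - x) + (a w * x + b w - y) := by ring
    rw [e]
    refine (abs_add_le _ _).trans ?_
    linarith
  have hpt : ∀ y, μ (Set.Ioc (y - s * ρ) y) ^ (1 + θ) ≤
      ∑ w, ENNReal.ofReal (q w) * τ w * ν w (Set.Ioc (y - s * ρ) y) ^ (1 + θ) := by
    intro y
    set J := Finset.univ.filter fun w => ν w (Set.Ioc (y - s * ρ) y) ≠ 0 with hJ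
    have e1 : μ (Set.Ioc (y - s * ρ) y) =
        ∑ w ∈ J, ENNReal.ofReal (q w) * ν w (Set.Ioc (y - s * ρ) y) := by
      rw [happ, hJ, Finset.sum_filter_of_ne]
      intro w _ hw h0
      exact hw (by rw [h0, mul_zero])
    have hP : ∑ w ∈ J, ENNReal.ofReal (q w) ≤ μ (Metric.closedBall y ((2 * M + 1) * s)) := by
      rw [happ]
      refine le_trans (Finset.sum_le_sum fun w hw => ?_)
        (Finset.sum_le_sum_of_subset (Finset.subset_univ J))
      have : ν w (Metric.closedBall y ((2 * M + 1) * s)) = 1 := by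
        rw [hν, Measure.map_apply (meas_aff _ _) Metric.isClosed_closedBall.measurableSet,
          ← measure_univ (μ := μ)]
        refine measure_congr (ae_eq_univ.mpr ?_)
        refine measure_mono_null (fun z hz => ?_) hM
        by_contra hz'
        exact hz (hnear y w (Finset.mem_filter.mp hw).2 z (not_lt.mp hz'))
      rw [this, mul_one]
    have hτ' : ∀ w ∈ J, (∑ w ∈ J, ENNReal.ofReal (q w)) ^ θ ≤ τ w := by
      intro w hw
      calc (∑ w ∈ J, ENNReal.ofReal (q w)) ^ θ = ∫⁻ _z, (∑ w ∈ J, ENNReal.ofReal (q w)) ^ θ ∂μ := by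
            simp
        _ ≤ τ w := by
          refine lintegral_mono_ae ?_
          filter_upwards [hae] with z hz
          refine ENNReal.rpow_le_rpow (hP.trans (measure_mono ?_)) hθ.le
          refine Metric.closedBall_subset_closedBall' ?_
          have := hnear y w (Finset.mem_filter.mp hw).2 z hz
          rw [Real.dist_eq, abs_sub_comm]
          linarith
    rw [e1]
    refine (fr_pm J hθ.le _ _).trans ?_
    rw [Finset.mul_sum]
    refine le_trans (Finset.sum_le_sum fun w hw => ?_)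
      (Finset.sum_le_sum_of_subset (Finset.subset_univ J))
    rw [mul_left_comm, mul_assoc]
    exact mul_le_mul_right (mul_le_mul_left (hτ' w hw) _) _
  have hT : ∀ w, frT (ν w) θ (s * ρ) ≤ frT μ θ (ρ / c) := by
    intro w
    unfold frT
    rw [hν, lintegral_map ((fr_meas_ball _ _).pow_const θ) (meas_aff _ _)]
    refine lintegral_mono fun z => ENNReal.rpow_le_rpow ?_ hθ.le
    rw [Measure.map_apply (meas_aff _ _) Metric.isClosed_closedBall.measurableSet]
    refine measure_mono fun x hx => ?_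
    simp only [Set.mem_preimage, Metric.mem_closedBall, Real.dist_eq] at hx ⊢
    have e : a w * x + b w - (a w * z + b w) = a w * (x - z) := by ring
    rw [e, abs_mul] at hx
    rw [le_div_iff₀ hc]
    have h1 := mul_le_mul_of_nonneg_right (ha w).1 (abs_nonneg (x - z))
    refine le_of_mul_le_mul_left ?_ hs
    linarith
  unfold frS
  refine (lintegral_mono hpt).trans ?_
  rw [lintegral_finsetSum _ fun w _ => ((fr_meas_win (ν w) _).pow_const _).const_mul _, ← hτsum,
    Finset.mul_sum, Finset.mul_sum]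
  refine Finset.sum_le_sum fun w _ => ?_
  rw [lintegral_const_mul _ ((fr_meas_win (ν w) _).pow_const _)]
  calc _ ≤ ENNReal.ofReal (q w) * τ w * (ENNReal.ofReal (s * ρ) * frT μ θ (ρ / c)) :=
        mul_le_mul_right ((frS_le (ν w) hθ.le _).trans (mul_le_mul_right (hT w) _)) _
    _ = _ := by ring

end Crest.Agent.R98
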