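import Crest.Agent.R98.Defs
import Crest.Agent.R98.FrostmanAux

/-! Row 98: entropy at arbitrarily small scales bounds the lower Hausdorff dimension. -/

set_option autoImplicit false

namespace Crest.Agent.R98

open MeasureTheory Finset Crest.AnalysisR
open scoped ENNReal

theorem fr_pointwise {g θ : ℝ} (h0 : 0 ≤ g) (h1 : g ≤ 1) (hθ : 0 < θ) :
    g ^ (1 + θ) + θ * Real.negMulLog g ≤ g + 4 * θ ^ 2 := by
  rcases h0.eq_or_lt with rfl | hg
  · rw [Real.zero_rpow (by linarith)]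
    simp only [Real.negMulLog_zero, mul_zero, zero_add]
    positivity
  set u := -Real.log g with hu
  have hu0 : 0 ≤ u := neg_nonneg.mpr (Real.log_nonpos h0 h1)
  have e1 : g ^ (1 + θ) = g * Real.exp (-(θ * u)) := by
    rw [Real.rpow_add hg, Real.rpow_one, Real.rpow_def_of_pos hg, hu]
    congr 2
    ring
  have e2 : Real.negMulLog g = g * u := by rw [Real.negMulLog, hu]; ring
  have h2 : Real.exp (-(θ * u)) ≤ 1 - θ * u + (θ * u) ^ 2 := by
    have hv : 0 ≤ θ * u := mul_nonneg hθ.le hu0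
    have h3 := Real.add_one_le_exp (θ * u)
    rw [Real.exp_neg, inv_le_iff_one_le_mul₀ (Real.exp_pos _)]
    have h4 : 0 ≤ 1 - θ * u + (θ * u) ^ 2 := by nlinarith [sq_nonneg (θ * u - 1)]
    nlinarith [mul_le_mul_of_nonneg_left h3 h4, pow_nonneg hv 3]
  have h3 : g * u ^ 2 ≤ 4 := by
    have hs := Real.sqrt_pos.mpr hg
    have h4 := Real.one_sub_inv_le_log_of_pos hs
    rw [Real.log_sqrt h0] at h4
    have h5 : Real.sqrt g * u ≤ 2 := by
      have h6 : u ≤ 2 * (Real.sqrt g)⁻¹ := by rw [hu]; linarith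
      calc Real.sqrt g * u ≤ Real.sqrt g * (2 * (Real.sqrt g)⁻¹) :=
            mul_le_mul_of_nonneg_left h6 hs.le
        _ = 2 := by field_simp
    have h7 : (Real.sqrt g * u) ^ 2 ≤ 2 ^ 2 := pow_le_pow_left₀ (by positivity) h5 2
    rw [mul_pow, Real.sq_sqrt h0] at h7
    linarith
  rw [e1, e2]
  nlinarith [mul_le_mul_of_nonneg_left h2 h0, mul_le_mul_of_nonneg_left h3 (sq_nonneg θ)]

theorem win_cdf (μ : Measure ℝ) [IsFiniteMeasure μ] {s : ℝ} (hs : 0 ≤ s) (y : ℝ) :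
    win (cdf μ 1) s y = μ.real (Set.Ioc (y - s) y) := by
  unfold win cdf
  simp only [one_mul]
  change μ.real (Set.Iic y) - μ.real (Set.Iic (y - s)) = _
  rw [← Set.Iic_union_Ioc_eq_Iic (show y - s ≤ y by linarith),
    measureReal_union (Set.Iic_disjoint_Ioc le_rfl) measurableSet_Ioc]
  ring

theorem frS_entropy {μ : Measure ℝ} [IsProbabilityMeasure μ] {M ρ θ β : ℝ}
    (hM : μ {x | M < |x|} = 0) (hM0 : 0 ≤ M) (hρ : 0 < ρ) (hθ : 0 < θ) (hβ0 : 0 ≤ β)
    (hβ : β ≤ Hs (cdf μ 1) ρ) :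
    frS μ θ ρ ≤ ENNReal.ofReal ρ *
      ENNReal.ofReal (Real.exp (-(θ * β) + θ ^ 2 * (4 * (2 * M + ρ) / ρ))) := by
  set g : ℝ → ℝ := fun y => μ.real (Set.Ioc (y - ρ) y) with hg
  have hg0 : ∀ y, 0 ≤ g y := fun y => measureReal_nonneg
  have hg1 : ∀ y, g y ≤ 1 := fun y => measureReal_le_one
  have hG : ∀ y, μ (Set.Ioc (y - ρ) y) = ENNReal.ofReal (g y) := fun y => by
    rw [hg, ofReal_measureReal]
  have hn : ∀ y, 0 ≤ Real.negMulLog (g y) := fun y => Real.negMulLog_nonneg (hg0 y) (hg1 y)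
  have hpt : ∀ y, μ (Set.Ioc (y - ρ) y) ^ (1 + θ) + ENNReal.ofReal θ * ‖Real.negMulLog (g y)‖ₑ ≤
      μ (Set.Ioc (y - ρ) y) * 1 +
        (Set.Icc (-M) (M + ρ)).indicator (fun _ => ENNReal.ofReal (4 * θ ^ 2)) y := by
    intro y
    by_cases hy : y ∈ Set.Icc (-M) (M + ρ)
    · rw [Set.indicator_of_mem hy, hG, ENNReal.ofReal_rpow_of_nonneg (hg0 y) (by linarith),
        Real.enorm_of_nonneg (hn y), ← ENNReal.ofReal_mul hθ.le, mul_one,
        ← ENNReal.ofReal_add (Real.rpow_nonneg (hg0 y) _) (mul_nonneg hθ.le (hn y)),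
        ← ENNReal.ofReal_add (hg0 y) (by positivity)]
      exact ENNReal.ofReal_le_ofReal (fr_pointwise (hg0 y) (hg1 y) hθ)
    · have h0 : μ (Set.Ioc (y - ρ) y) = 0 := by
        refine measure_mono_null (fun z hz => ?_) hM
        rw [Set.mem_Icc, not_and_or, not_le, not_le] at hy
        rcases hy with hy | hy
        · exact (lt_abs (a := M) (b := z)).mpr (Or.inr (by linarith [hz.2]))
        · exact (lt_abs (a := M) (b := z)).mpr (Or.inl (by linarith [hz.1]))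
      have h1 : g y = 0 := by simp [hg, Measure.real, h0]
      rw [h0, h1, ENNReal.zero_rpow_of_pos (by linarith)]
      simp
  have h1 := lintegral_mono (μ := volume) hpt
  rw [lintegral_add_left ((fr_meas_win μ ρ).pow_const _),
    lintegral_add_left ((fr_meas_win μ ρ).mul_const _), fr_tonelli μ ρ measurable_const,
    lintegral_indicator_const measurableSet_Icc,
    lintegral_const_mul' _ _ ENNReal.ofReal_ne_top] at h1
  have h2 : ENNReal.ofReal (β * ρ) ≤ ∫⁻ y, ‖Real.negMulLog (g y)‖ₑ := by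
    refine le_trans ?_ (enorm_integral_le_lintegral_enorm _)
    unfold Hs at hβ
    simp only [win_cdf μ hρ.le] at hβ
    rw [le_div_iff₀ hρ] at hβ
    exact (ENNReal.ofReal_le_ofReal hβ).trans (Real.ofReal_le_enorm _)
  have h3 : frS μ θ ρ + ENNReal.ofReal (θ * (β * ρ)) ≤
      ENNReal.ofReal (ρ + 4 * θ ^ 2 * (2 * M + ρ)) := by
    rw [ENNReal.ofReal_mul hθ.le]
    refine (add_le_add le_rfl (mul_le_mul_right h2 _)).trans (h1.trans (le_of_eq ?_))
    rw [ENNReal.ofReal_add hρ.le (by positivity),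
      ENNReal.ofReal_mul (show 0 ≤ 4 * θ ^ 2 by positivity)]
    congr 1
    · simp
    · rw [Real.volume_Icc]
      congr 2
      ring
  have h4 := ENNReal.le_sub_of_add_le_right ENNReal.ofReal_ne_top h3
  rw [← ENNReal.ofReal_sub _ (by positivity)] at h4
  refine h4.trans ?_
  rw [← ENNReal.ofReal_mul hρ.le]
  refine ENNReal.ofReal_le_ofReal (le_trans (le_of_eq ?_)
    (mul_le_mul_of_nonneg_left (Real.add_one_le_exp _) hρ.le))
  field_simp
  ring

theorem fr_dim {μ : Measure ℝ} [IsProbabilityMeasure μ] {κ θ a₁ a₂ : ℝ} (hκ : 0 < κ) (hκ1 : κ < 1)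
    (hθ : 0 < θ) (ha₁ : 0 < a₁) (ha : a₁ < a₂)
    (hT : ∀ N : ℕ, frT μ θ (κ ^ N) ≤ ENNReal.ofReal (κ ^ (θ * a₂)) ^ N) {E : Set ℝ}
    (hE : 0 < μ E) : ENNReal.ofReal a₁ ≤ dimH E := by
  set bad : ℕ → Set ℝ := fun N =>
    {x | ENNReal.ofReal (κ ^ a₁) ^ N ≤ μ (Metric.closedBall x (κ ^ N))} with hbad
  have hbm : ∀ N, MeasurableSet (bad N) := fun N =>
    measurableSet_le measurable_const (fr_meas_ball μ _)
  have hk : ∀ e : ℝ, 0 < κ ^ e := fun e => Real.rpow_pos_of_pos hκ e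
  have hb : ∀ N, μ (bad N) ≤ ENNReal.ofReal (κ ^ (θ * (a₂ - a₁))) ^ N := by
    intro N
    have h1 := mul_meas_ge_le_lintegral (μ := μ) ((fr_meas_ball μ (κ ^ N)).pow_const θ)
      (ENNReal.ofReal (κ ^ (θ * a₁)) ^ N)
    have h2 : bad N ⊆ {x | ENNReal.ofReal (κ ^ (θ * a₁)) ^ N ≤
        μ (Metric.closedBall x (κ ^ N)) ^ θ} := by
      intro x hx
      refine le_trans (le_of_eq ?_) (ENNReal.rpow_le_rpow hx hθ.le)
      rw [mul_comm, Real.rpow_mul hκ.le, ← ENNReal.ofReal_rpow_of_pos (hk _), ← ENNReal.rpow_natCast,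
        ← ENNReal.rpow_natCast, ← ENNReal.rpow_mul, ← ENNReal.rpow_mul, mul_comm]
    have h3 := ((mul_le_mul_right (measure_mono h2) _).trans h1).trans (hT N)
    have e : ENNReal.ofReal (κ ^ (θ * a₂)) ^ N =
        ENNReal.ofReal (κ ^ (θ * a₁)) ^ N * ENNReal.ofReal (κ ^ (θ * (a₂ - a₁))) ^ N := by
      rw [← mul_pow, ← ENNReal.ofReal_mul (hk _).le, ← Real.rpow_add hκ]
      congr 3
      ring
    rw [e] at h3
    exact (ENNReal.mul_le_mul_iff_right (pow_ne_zero _ (ENNReal.ofReal_pos.mpr (hk _)).ne')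
      (ENNReal.pow_ne_top ENNReal.ofReal_ne_top)).mp h3
  have hsum : ∑' N, μ (bad N) ≠ ∞ := by
    refine ne_top_of_le_ne_top ?_ (ENNReal.tsum_le_tsum hb)
    rw [ENNReal.tsum_geometric, ENNReal.inv_ne_top]
    refine (tsub_pos_of_lt ?_).ne'
    rw [ENNReal.ofReal_lt_one]
    exact Real.rpow_lt_one hκ.le hκ1 (mul_pos hθ (sub_pos.mpr ha))
  have hae := ae_eventually_notMem hsum
  set good : ℕ → Set ℝ := fun n => ⋂ N, ⋂ (_ : n ≤ N), (bad N)ᶜ with hgood
  have hgm : ∀ n, MeasurableSet (good n) := fun n =>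
    MeasurableSet.iInter fun N => MeasurableSet.iInter fun _ => (hbm N).compl
  obtain ⟨n, hn⟩ : ∃ n, μ (E ∩ good n) ≠ 0 := by
    by_contra hcon
    push Not at hcon
    refine hE.ne' (measure_mono_null (t := (⋃ n, E ∩ good n) ∪
      {x | ¬∀ᶠ N in Filter.atTop, x ∉ bad N}) (fun x hx => ?_)
      (measure_union_null (measure_iUnion_null hcon) (ae_iff.mp hae)))
    by_cases hx' : ∀ᶠ N in Filter.atTop, x ∉ bad N
    · obtain ⟨n, hn⟩ := Filter.eventually_atTop.mp hx'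
      exact Or.inl (Set.mem_iUnion.mpr ⟨n, hx, Set.mem_iInter₂.mpr hn⟩)
    · exact Or.inr hx'
  have hle : ENNReal.ofReal (κ ^ a₁) • μ.restrict (good n) ≤ μH[a₁] := by
    refine Measure.le_hausdorffMeasure _ _ (ENNReal.ofReal (κ ^ n))
      (ENNReal.ofReal_pos.mpr (pow_pos hκ n)) fun s hs => ?_
    rw [Measure.smul_apply, Measure.restrict_apply' (hgm n), smul_eq_mul]
    rcases (s ∩ good n).eq_empty_or_nonempty with h0 | ⟨x, hxs, hxg⟩
    · simp [h0]
    have hfin : Metric.ediam s ≠ ∞ := ne_top_of_le_ne_top ENNReal.ofReal_ne_top hs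
    have hkey : ∀ N, n ≤ N → Metric.ediam s ≤ ENNReal.ofReal (κ ^ N) →
        ENNReal.ofReal (κ ^ a₁) * μ (s ∩ good n) ≤ ENNReal.ofReal (κ ^ a₁) ^ (N + 1) := by
      intro N hN hd
      rw [pow_succ']
      refine mul_le_mul_right ?_ _
      have h1 : ¬ENNReal.ofReal (κ ^ a₁) ^ N ≤ μ (Metric.closedBall x (κ ^ N)) :=
        Set.mem_iInter₂.mp hxg N hN
      refine le_trans (measure_mono fun z hz => ?_) (not_le.mp h1).le
      rw [Metric.mem_closedBall, ← ENNReal.ofReal_le_ofReal_iff (pow_pos hκ N).le, ← edist_dist]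
      exact (Metric.edist_le_ediam_of_mem hz.1 hxs).trans hd
    rcases eq_or_ne (Metric.ediam s) 0 with h0 | h0
    · refine le_trans (ge_of_tendsto (f := fun N : ℕ => ENNReal.ofReal (κ ^ a₁) ^ (N + 1))
        (x := Filter.atTop) (a := 0) ?_ ?_) zero_le
      · refine (ENNReal.tendsto_pow_atTop_nhds_zero_of_lt_one ?_).comp
          (Filter.tendsto_add_atTop_nat 1)
        rw [ENNReal.ofReal_lt_one]
        exact Real.rpow_lt_one hκ.le hκ1 ha₁
      · filter_upwards [Filter.eventually_ge_atTop n] with N hN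
        exact hkey N hN (by rw [h0]; exact zero_le)
    · have hd0 : 0 < (Metric.ediam s).toReal := ENNReal.toReal_pos h0 hfin
      have hdn : (Metric.ediam s).toReal ≤ κ ^ n :=
        ENNReal.toReal_le_of_le_ofReal (pow_pos hκ n).le hs
      obtain ⟨N, hN1, hN2⟩ := exists_nat_pow_near_of_lt_one hd0
        (hdn.trans (pow_le_one₀ hκ.le hκ1.le)) hκ hκ1
      have hN : n ≤ N := by
        have := (pow_lt_pow_iff_right_of_lt_one₀ hκ hκ1).mp (hN1.trans_le hdn)
        omega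
      refine (hkey N hN ((ENNReal.le_ofReal_iff_toReal_le hfin (pow_pos hκ N).le).mpr hN2)).trans ?_
      rw [← ENNReal.ofReal_toReal hfin, ENNReal.ofReal_rpow_of_pos hd0,
        ← ENNReal.ofReal_pow (hk _).le]
      refine ENNReal.ofReal_le_ofReal ?_
      rw [← Real.rpow_natCast, ← Real.rpow_mul hκ.le, mul_comm, Real.rpow_mul hκ.le,
        Real.rpow_natCast]
      exact Real.rpow_le_rpow (pow_pos hκ _).le hN1.le ha₁.le
  refine le_dimH_of_hausdorffMeasure_ne_zero (d := a₁.toNNReal) fun h0 => ?_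
  rw [Real.coe_toNNReal _ ha₁.le] at h0
  have h1 := Measure.le_iff'.mp hle E
  rw [h0, Measure.smul_apply, Measure.restrict_apply' (hgm n), smul_eq_mul, nonpos_iff_eq_zero,
    mul_eq_zero] at h1
  rcases h1 with h1 | h1
  · exact (ENNReal.ofReal_pos.mpr (hk _)).ne' h1
  · exact hn h1

theorem lower_of_entropy {ι : Type*} [Fintype ι] {p r t : ι → ℝ} {μ : Measure ℝ}
    [IsProbabilityMeasure μ] (h : SS μ p r t) (hp : PV p) {c R : ℝ} (hc : 0 < c) (hR : R < 1)
    (hr : ∀ i, c ≤ |r i| ∧ |r i| ≤ R) {α : ℝ}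
    (hH : ∀ ρ₁ : ℝ, 0 < ρ₁ → ∃ ρ : ℝ, 0 < ρ ∧ ρ ≤ ρ₁ ∧ α * Real.log (1 / ρ) ≤ Hs (cdf μ 1) ρ) :
    ENNReal.ofReal α ≤ lowerHausdorffDim μ := by
  refine le_iInf fun E => le_iInf fun _ => le_iInf fun hE => ?_
  refine ENNReal.le_of_forall_pos_nnreal_lt fun a ha0 ha => ?_
  have ha1 : (a : ℝ) < α := by
    rw [← ENNReal.ofReal_coe_nnreal] at ha
    exact (ENNReal.ofReal_lt_ofReal_iff_of_nonneg a.2).mp ha
  have ha0' : (0 : ℝ) < a := ha0
  rw [← ENNReal.ofReal_coe_nnreal]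
  obtain ⟨M, hM0, hM⟩ := h.support hp hc hR hr
  have hc1 : c ≤ 1 := by
    have hne : Nonempty ι := by
      by_contra h0
      have := hp.sum
      rw [not_nonempty_iff] at h0
      simp at this
    obtain ⟨i⟩ := hne
    exact ((hr i).1.trans (hr i).2).trans hR.le
  set a₂ : ℝ := (a + α) / 2 with ha₂
  set K : ℝ := 2 * (2 * M + 1) with hK
  have hK1 : 1 < K := by linarith
  have hlK : 0 ≤ Real.log (K / c) := Real.log_nonneg ((one_le_div hc).mpr (by linarith))
  have hl3 : 0 ≤ Real.log 3 := Real.log_nonneg (by norm_num)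
  set D : ℝ := (2 * Real.log 3 + a₂ * Real.log (K / c) + 1) / (α - a₂) with hD
  have hαa : 0 < α - a₂ := by linarith
  have ha₂0 : 0 < a₂ := by linarith
  have hD0 : 0 ≤ D := by positivity
  obtain ⟨ρ, hρ, hρ1, hρH⟩ := hH (Real.exp (-D)) (Real.exp_pos _)
  have hρD : D ≤ Real.log (1 / ρ) := by
    have := Real.log_le_log hρ hρ1
    rw [Real.log_exp] at this
    rw [one_div, Real.log_inv]
    linarith
  have hρ1' : ρ ≤ 1 := hρ1.trans (Real.exp_le_one_iff.mpr (by linarith))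
  set B : ℝ := 4 * (2 * M + ρ) / ρ with hB
  have hB0 : 0 < B := by positivity
  set θ : ℝ := 1 / B with hθ
  have hθ0 : 0 < θ := by positivity
  set κ : ℝ := c * ρ / K with hκ
  have hκ0 : 0 < κ := by positivity
  have hcρ : c * ρ ≤ 1 := mul_le_one₀ hc1 hρ.le hρ1'
  have hκ1 : κ < 1 := (div_lt_one (by linarith)).mpr (by linarith)
  have hcancel : ∀ {s : ℝ} {x y : ℝ≥0∞}, 0 < s → ENNReal.ofReal s * x ≤ ENNReal.ofReal s * y →
      x ≤ y := fun hs hxy =>
    (ENNReal.mul_le_mul_iff_right (ENNReal.ofReal_pos.mpr hs).ne' ENNReal.ofReal_ne_top).mp hxy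
  have hΛ : 3 ^ θ * frT μ θ ρ ≤ ENNReal.ofReal (κ ^ (θ * a₂)) := by
    have h1 := (frT_le μ hθ0 ρ).trans (mul_le_mul_right
      (frS_entropy hM hM0.le hρ hθ0 (mul_nonneg (by linarith) (hD0.trans hρD)) hρH) _)
    rw [mul_left_comm] at h1
    refine (mul_le_mul_right (hcancel hρ h1) _).trans ?_
    have e3 : (3 : ℝ≥0∞) ^ θ = ENNReal.ofReal (Real.exp (Real.log 3 * θ)) := by
      rw [← Real.rpow_def_of_pos (by norm_num), ← ENNReal.ofReal_rpow_of_pos (by norm_num)]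
      simp
    rw [e3, ← ENNReal.ofReal_mul (Real.exp_pos _).le, ← ENNReal.ofReal_mul (Real.exp_pos _).le,
      ← Real.exp_add, ← Real.exp_add, Real.rpow_def_of_pos hκ0]
    refine ENNReal.ofReal_le_ofReal (Real.exp_le_exp.mpr ?_)
    have e4 : Real.log κ = -Real.log (1 / ρ) - Real.log (K / c) := by
      rw [hκ, Real.log_div (by positivity) (by positivity), Real.log_mul hc.ne' hρ.ne',
        Real.log_div (by positivity) hc.ne', one_div, Real.log_inv]
      ring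
    have e5 : θ ^ 2 * B = θ := by rw [hθ]; field_simp
    have h2 : 2 * Real.log 3 + a₂ * Real.log (K / c) + 1 ≤ Real.log (1 / ρ) * (α - a₂) :=
      (div_le_iff₀ hαa).mp hρD
    rw [e4, ← hB, e5]
    nlinarith [mul_le_mul_of_nonneg_left h2 hθ0.le]
  refine fr_dim hκ0 hκ1 hθ0 ha0' (show (a : ℝ) < a₂ by linarith) (fun N => ?_) hE
  induction N with
  | zero =>
    unfold frT
    calc _ ≤ ∫⁻ _x, 1 ∂μ := lintegral_mono fun x => ENNReal.rpow_le_one prob_le_one hθ0.le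
      _ = _ := by simp
  | succ N ih =>
    have hs0 : 0 < κ ^ N / K := by positivity
    have hs1 : κ ^ N / K ≤ 1 :=
      (div_le_one (by linarith)).mpr ((pow_le_one₀ hκ0.le hκ1.le).trans hK1.le)
    obtain ⟨A, _, q, a', b', -, hS, hab⟩ := h.cut hp hc hR hr hs0 hs1
    have h1 := fr_submult hS hM hc hs0 hcρ hθ0 hab
    have e1 : κ ^ N / K * (c * ρ) = κ ^ (N + 1) := by rw [pow_succ, hκ]; ring
    have e2 : c * ρ / c = ρ := by field_simp
    have e3 : 2 * (2 * M + 1) * (κ ^ N / K) = κ ^ N := by rw [← hK]; field_simp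
    rw [e1, e2, e3] at h1
    have h2 := (frT_le μ hθ0 _).trans (mul_le_mul_right h1 _)
    rw [mul_left_comm] at h2
    refine (hcancel (pow_pos hκ0 _) h2).trans ?_
    rw [← mul_assoc, pow_succ']
    exact mul_le_mul' hΛ ih

end Crest.Agent.R98
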