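import Crest.Agent.R98.Defs

/-! Row 98: the upper bound. -/

set_option autoImplicit false

namespace Crest.Agent.R98

open MeasureTheory Finset Crest.AnalysisR
open scoped ENNReal

namespace UpperAux

theorem lemU {A : Type*} [Fintype A] [Nonempty A] {q a b : A → ℝ} {μ : Measure ℝ}
    [IsProbabilityMeasure μ] (h : SS μ q a b) (hq : PV q) (hq0 : ∀ i, 0 < q i)
    (ha : ∀ i, a i ≠ 0 ∧ |a i| < 1) {s : ℝ} (hs : 0 < s)
    (hlt : -∑ i, q i * Real.log (q i) < s * -∑ i, q i * Real.log |a i|) :
    lowerHausdorffDim μ ≤ ENNReal.ofReal s := by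
  classical
  obtain ⟨c, R, hc, hR, hcR⟩ := exists_bounds ha
  obtain ⟨M, hM, hsupp⟩ := h.support hq hc hR hcR
  have hR0 : 0 ≤ R := (abs_nonneg _).trans (hcR (Classical.arbitrary A)).2
  let ξ : A → ℝ := fun i => -Real.log (q i) + s * Real.log |a i|
  have hm : ∑ i, q i * ξ i < 0 := by
    have : ∑ i, q i * ξ i = -∑ i, q i * Real.log (q i) + s * ∑ i, q i * Real.log |a i| := by
      rw [Finset.mul_sum, ← Finset.sum_neg_distrib, ← Finset.sum_add_distrib]
      exact Finset.sum_congr rfl fun i _ => by simp only [ξ]; ring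
    rw [this]; linarith
  obtain ⟨κ, hκ0, hκ1, hκ⟩ := large_dev hq ξ (ε := -(∑ i, q i * ξ i)) (by linarith)
  simp only [add_neg_cancel, zero_mul] at hκ
  let T : ∀ N : ℕ, (Fin N → A) → Set ℝ := fun N w =>
    if 0 < ∑ j, ξ (w j) then ∅
    else Set.Icc (wt a b w - M * |wp a w|) (wt a b w + M * |wp a w|)
  have hTm : ∀ N, MeasurableSet (⋃ w, T N w) := fun N =>
    MeasurableSet.iUnion fun w => by
      simp only [T]
      split_ifs
      · exact MeasurableSet.empty
      · exact measurableSet_Icc
  have hTc : ∀ N, μ (⋃ w, T N w)ᶜ ≤ ENNReal.ofReal (κ ^ N) := fun N => by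
    rw [← ofReal_measureReal]
    refine ENNReal.ofReal_le_ofReal (le_trans ?_ (hκ N))
    rw [(h.iter hq.nonneg N).real_apply (hq.wp N).nonneg (hTm N).compl]
    refine Finset.sum_le_sum fun w _ => ?_
    split_ifs with hw
    · exact mul_le_of_le_one_right ((hq.wp N).nonneg w) measureReal_le_one
    · have : μ {x | wp a w * x + wt a b w ∈ (⋃ w, T N w)ᶜ} = 0 := by
        refine measure_mono_null (fun x hx => ?_) hsupp
        by_contra hx'
        simp only [Set.mem_ofPred_eq, not_lt] at hx'
        refine hx (Set.mem_iUnion.2 ⟨w, ?_⟩)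
        simp only [T, if_neg hw]
        have h1 : |wp a w * x| ≤ M * |wp a w| := by
          rw [abs_mul, mul_comm]; gcongr
        have h2 := abs_le.1 h1
        constructor <;> linarith [h2.1, h2.2]
      rw [Measure.real, this]; simp
  obtain ⟨N₀, hN₀⟩ := exists_pow_lt_of_lt_one (show 0 < 1 - κ by linarith) hκ1
  let E : Set ℝ := ⋂ N, ⋃ w, T (N + N₀) w
  have hEm : MeasurableSet E := MeasurableSet.iInter fun N => hTm _
  have hEc : μ Eᶜ < 1 := by
    have hsum : HasSum (fun N => κ ^ (N + N₀)) ((1 - κ)⁻¹ * κ ^ N₀) := by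
      simpa only [pow_add] using (hasSum_geometric_of_lt_one hκ0 hκ1).mul_right (κ ^ N₀)
    calc μ Eᶜ ≤ ∑' N, μ (⋃ w, T (N + N₀) w)ᶜ := by
          rw [Set.compl_iInter]; exact measure_iUnion_le _
      _ ≤ ∑' N, ENNReal.ofReal (κ ^ (N + N₀)) := ENNReal.tsum_le_tsum fun N => hTc _
      _ = ENNReal.ofReal ((1 - κ)⁻¹ * κ ^ N₀) := by
          rw [← ENNReal.ofReal_tsum_of_nonneg (fun N => by positivity) hsum.summable, hsum.tsum_eq]
      _ < 1 := by
          rw [ENNReal.ofReal_lt_one, inv_mul_lt_iff₀ (by linarith)]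
          linarith
  have hE0 : 0 < μ E := by
    rw [pos_iff_ne_zero]
    intro h0
    rw [prob_compl_eq_one_sub hEm, h0] at hEc
    simp at hEc
  have hdiam : ∀ N w, Metric.ediam (T N w) ≤ ENNReal.ofReal (2 * M * |wp a w|) := fun N w => by
    simp only [T]
    split_ifs
    · simp
    · rw [Real.ediam_Icc]
      exact ENNReal.ofReal_le_ofReal (by linarith)
  have hH : μH[s] E ≤ ENNReal.ofReal ((2 * M) ^ s) := by
    refine (Measure.hausdorffMeasure_le_liminf_sum s E (l := Filter.atTop)
      (fun N : ℕ => ENNReal.ofReal (2 * M * R ^ N)) ?_ T ?_ ?_).trans ?_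
    · have := ENNReal.tendsto_ofReal
        ((tendsto_pow_atTop_nhds_zero_of_lt_one hR0 hR).const_mul (2 * M))
      simpa using this
    · refine Filter.Eventually.of_forall fun N w => (hdiam N w).trans
        (ENNReal.ofReal_le_ofReal ?_)
      gcongr
      unfold wp
      rw [Finset.abs_prod]
      simpa using Finset.prod_le_prod (s := Finset.univ) (f := fun j => |a (w j)|)
        (g := fun _ => R) (fun _ _ => abs_nonneg _) (fun j _ => (hcR _).2)
    · filter_upwards [Filter.eventually_ge_atTop N₀] with N hN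
      obtain ⟨k, rfl⟩ := Nat.exists_eq_add_of_le' hN
      exact Set.iInter_subset _ k
    · refine Filter.liminf_le_of_frequently_le' (Filter.Frequently.of_forall fun N => ?_)
      calc ∑ w, Metric.ediam (T N w) ^ s ≤ ∑ w, ENNReal.ofReal ((2 * M) ^ s * wp q w) := by
            refine Finset.sum_le_sum fun w _ => ?_
            by_cases hw : 0 < ∑ j, ξ (w j)
            · simp [T, hw, hs]
            refine (ENNReal.rpow_le_rpow (hdiam N w) hs.le).trans ?_
            rw [ENNReal.ofReal_rpow_of_nonneg (by positivity) hs.le,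
              Real.mul_rpow (by positivity) (abs_nonneg _)]
            refine ENNReal.ofReal_le_ofReal (mul_le_mul_of_nonneg_left ?_ (by positivity))
            have e : |wp a w| ^ s = wp q w * Real.exp (∑ j, ξ (w j)) := by
              unfold wp
              rw [Finset.abs_prod, ← Real.finsetProd_rpow _ _ (fun _ _ => abs_nonneg _),
                Real.exp_sum, ← Finset.prod_mul_distrib]
              refine Finset.prod_congr rfl fun j _ => ?_
              simp only [ξ]
              rw [Real.exp_add, Real.exp_neg, Real.exp_log (hq0 _), ← mul_assoc,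
                mul_inv_cancel₀ (hq0 _).ne', one_mul, Real.rpow_def_of_pos (abs_pos.2 (ha _).1),
                mul_comm]
            rw [e]
            exact mul_le_of_le_one_right ((hq.wp N).nonneg w)
              (Real.exp_le_one_iff.2 (not_lt.1 hw))
        _ = ENNReal.ofReal ((2 * M) ^ s) := by
            rw [← ENNReal.ofReal_sum_of_nonneg
              (fun w _ => mul_nonneg (by positivity) ((hq.wp N).nonneg w)), ← Finset.mul_sum,
              (hq.wp N).sum, mul_one]
  have hd : dimH E ≤ ENNReal.ofReal s :=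
    dimH_le_of_hausdorffMeasure_ne_top (d := s.toNNReal)
      (by rw [Real.coe_toNNReal _ hs.le]; exact ne_top_of_le_ne_top ENNReal.ofReal_ne_top hH)
  exact le_trans (iInf₂_le_of_le E hEm (iInf_le _ hE0)) hd

/-- Merging letters with the same map. -/
theorem lemM {A : Type*} [Fintype A] [Nonempty A] {q a b : A → ℝ} {μ : Measure ℝ}
    [IsProbabilityMeasure μ] (h : SS μ q a b) (hq : PV q) (hq0 : ∀ i, 0 < q i)
    (ha : ∀ i, a i ≠ 0 ∧ |a i| < 1) {s : ℝ} (hs : 0 < s)
    (hlt : finiteLawEntropy q (fun i => (a i, b i)) < s * -∑ i, q i * Real.log |a i|) :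
    lowerHausdorffDim μ ≤ ENNReal.ofReal s := by
  classical
  let S : Finset (ℝ × ℝ) := Finset.univ.image fun i => (a i, b i)
  let Z : A → S := fun i => ⟨(a i, b i), Finset.mem_image_of_mem _ (Finset.mem_univ i)⟩
  have hZ : ∀ v : S, ∃ i, Z i = v := fun v => by
    obtain ⟨i, -, hi⟩ := Finset.mem_image.1 v.2
    exact ⟨i, Subtype.ext hi⟩
  have : Nonempty S := ⟨Z (Classical.arbitrary A)⟩
  let Q : S → ℝ := fun v => ∑ i ∈ Finset.univ.filter (fun i => Z i = v), q i
  have key : ∀ f : S → ℝ, ∑ v, Q v * f v = ∑ i, q i * f (Z i) := fun f => by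
    rw [← Finset.sum_fiberwise (s := Finset.univ) (g := Z)]
    refine Finset.sum_congr rfl fun v _ => ?_
    rw [Finset.sum_mul]
    exact Finset.sum_congr rfl fun i hi => by rw [(Finset.mem_filter.1 hi).2]
  have hQ0 : ∀ v, 0 < Q v := fun v => by
    obtain ⟨i, hi⟩ := hZ v
    exact Finset.sum_pos (fun j _ => hq0 j) ⟨i, by simp [hi]⟩
  refine lemU (q := Q) (a := fun v => v.1.1) (b := fun v => v.1.2) ?_
    ⟨fun v => (hQ0 v).le, ?_⟩ hQ0 (fun v => ?_) hs ?_
  · unfold SS
    refine h.trans ?_
    rw [← Finset.sum_fiberwise (s := Finset.univ) (g := Z)]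
    refine Finset.sum_congr rfl fun v _ => ?_
    rw [ENNReal.ofReal_sum_of_nonneg (fun i _ => hq.nonneg i), Finset.sum_smul]
    refine Finset.sum_congr rfl fun i hi => ?_
    rw [← (Finset.mem_filter.1 hi).2]
  · simpa [hq.sum] using key fun _ => 1
  · obtain ⟨i, rfl⟩ := hZ v
    exact ha i
  · rw [key, key]
    refine lt_of_eq_of_lt ?_ hlt
    unfold finiteLawEntropy
    congr 1
    refine Finset.sum_congr rfl fun i _ => ?_
    congr 2
    simp only [Q, Finset.sum_filter, Set.indicator_apply, Set.mem_ofPred_eq, Z, Subtype.mk.injEq]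

theorem sum_wp_mul {ι : Type*} [Fintype ι] {p : ι → ℝ} (hp : PV p) (f : ι → ℝ) (n : ℕ) :
    ∑ w : Fin n → ι, wp p w * ∑ j, f (w j) = n * ∑ i, p i * f i := by
  classical
  simp only [Finset.mul_sum (s := (Finset.univ : Finset (Fin n)))]
  rw [Finset.sum_comm]
  have : ∀ j : Fin n, ∑ w : Fin n → ι, wp p w * f (w j) = ∑ i, p i * f i := fun j => by
    have e1 : ∀ w : Fin n → ι, wp p w * f (w j) =
        ∏ k, (p (w k) * if k = j then f (w k) else 1) := fun w => by
      rw [Finset.prod_mul_distrib, Finset.prod_ite_eq']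
      simp [wp]
    simp only [e1]
    rw [← Fintype.piFinset_univ, ← Finset.prod_univ_sum (fun _ => Finset.univ)
      (fun k i => p i * if k = j then f i else 1), Finset.prod_eq_single j]
    · simp
    · intro k _ hk
      simp [hk, hp.sum]
    · simp
  simp [this]

end UpperAux

open UpperAux in
theorem upper {ι : Type*} [Fintype ι] [Nonempty ι] {p r t : ι → ℝ} {μ : Measure ℝ}
    [IsProbabilityMeasure μ] (h : SS μ p r t) (hp : PV p) (hp0 : ∀ i, 0 < p i)
    (hr : ∀ i, r i ≠ 0 ∧ |r i| < 1) :
    lowerHausdorffDim μ ≤ ENNReal.ofReal (min 1 (rwEntropyRate r t p / lyapunovExp r p)) := by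
  classical
  rw [ENNReal.ofReal_min]
  refine le_min ?_ ?_
  · rw [ENNReal.ofReal_one, ← Real.dimH_univ]
    exact iInf₂_le_of_le Set.univ MeasurableSet.univ (iInf_le _ (by simp))
  have hχ : 0 < lyapunovExp r p := by
    unfold lyapunovExp
    rw [neg_pos]
    exact Finset.sum_neg
      (fun i _ => mul_neg_of_pos_of_neg (hp0 i) (Real.log_neg (abs_pos.2 (hr i).1) (hr i).2))
      Finset.univ_nonempty
  refine ENNReal.le_of_forall_pos_le_add fun ε hε _ => ?_
  have hε' : (0 : ℝ) < ε := hε
  set s : ℝ := max (rwEntropyRate r t p / lyapunovExp r p) 0 + ε with hs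
  have hs0 : 0 < s := by have := le_max_right (rwEntropyRate r t p / lyapunovExp r p) 0; linarith
  have hlt : rwEntropyRate r t p < s * lyapunovExp r p := by
    rw [← div_lt_iff₀ hχ]
    have := le_max_left (rwEntropyRate r t p / lyapunovExp r p) 0
    linarith
  obtain ⟨m, hm⟩ := exists_lt_of_ciInf_lt hlt
  rw [div_lt_iff₀ (by positivity)] at hm
  have hmain : lowerHausdorffDim μ ≤ ENNReal.ofReal s := by
    refine lemM (h.iter hp.nonneg (m + 1)) (hp.wp _) (fun w => Finset.prod_pos fun j _ => hp0 _)
      (fun w => ⟨Finset.prod_ne_zero_iff.2 fun j _ => (hr _).1, ?_⟩) hs0 ?_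
    · unfold wp
      rw [Finset.abs_prod, Fin.prod_univ_succ]
      exact mul_lt_one_of_nonneg_of_lt_one_left (abs_nonneg _) (hr _).2
        (Finset.prod_le_one (fun _ _ => abs_nonneg _) fun j _ => (hr _).2.le)
    · have e1 : finiteLawEntropy (wp p (n := m + 1)) (fun w => (wp r w, wt r t w)) =
          composedMapEntropy r t p (m + 1) := by
        unfold composedMapEntropy finiteLawEntropy
        congr 1
        refine Finset.sum_congr rfl fun w _ => ?_
        congr 3
        funext w'
        congr 1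
        ext v
        simp only [Set.mem_ofPred_eq, Prod.mk.injEq]
        constructor
        · rintro ⟨h1, h2⟩
          funext x
          rw [word_map, word_map, h1, h2]
        · intro h1
          have h2 := congrFun h1 0
          have h3 := congrFun h1 1
          rw [word_map, word_map] at h2 h3
          constructor <;> linarith
      have e2 : ∑ w : Fin (m + 1) → ι, wp p w * Real.log |wp r w| =
          (m + 1 : ℕ) * ∑ i, p i * Real.log |r i| := by
        rw [← sum_wp_mul hp]
        refine Finset.sum_congr rfl fun w _ => ?_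
        congr 1
        unfold wp
        rw [Finset.abs_prod, Real.log_prod (fun j _ => (abs_pos.2 (hr _).1).ne')]
      rw [e1, e2]
      unfold lyapunovExp at hm
      push_cast
      linarith
  refine hmain.trans ?_
  rw [hs, ENNReal.ofReal_add (le_max_right _ _) hε'.le, ENNReal.ofReal_max, ENNReal.ofReal_zero,
    max_eq_left zero_le, ENNReal.ofReal_coe_nnreal]

end Crest.Agent.R98
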