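import Crest.Agent.R98.Main
import Crest.Agent.R98.Frostman
import Crest.Agent.R98.Upper

/-! Row 98: passing to blocks; the lower bound. -/

set_option autoImplicit false

namespace Crest.Agent.R98

open MeasureTheory Finset Real Crest.AnalysisR Filter Topology

theorem fle_nonneg {A β : Type*} [Fintype A] {q : A → ℝ} (hq : PV q) (g : A → β) :
    0 ≤ finiteLawEntropy q g := by
  refine neg_nonneg.2 (Finset.sum_nonpos (fun a _ => mul_nonpos_of_nonneg_of_nonpos (hq.nonneg a)
    (Real.log_nonpos (Finset.sum_nonneg (fun b _ =>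
      Set.indicator_nonneg (fun b _ => hq.nonneg b) b)) ?_)))
  rw [← hq.sum]
  exact Finset.sum_le_sum (fun b _ => Set.indicator_le_self' (fun b _ => hq.nonneg b) b)

theorem fle_equiv {A A' β : Type*} [Fintype A] [Fintype A'] (e : A' ≃ A) (q : A → ℝ) (g : A → β) :
    finiteLawEntropy (fun a => q (e a)) (fun a => g (e a)) = finiteLawEntropy q g := by
  unfold finiteLawEntropy
  rw [← Equiv.sum_comp e]
  congr 1
  refine Finset.sum_congr rfl (fun a _ => ?_)
  rw [← Equiv.sum_comp e]
  rfl

variable {ι : Type*}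

theorem word_append (r t : ι → ℝ) (l₁ l₂ : List ι) (x : ℝ) :
    affineWordMap r t (l₁ ++ l₂) x = affineWordMap r t l₁ (affineWordMap r t l₂ x) := by
  induction l₁ with
  | nil => rfl
  | cons i l ih =>
    change r i * affineWordMap r t (l ++ l₂) x + t i = r i * _ + t i
    rw [ih]
    rfl

theorem word_flatten (r t : ι → ℝ) {k : ℕ} (l : List (Fin k → ι)) (x : ℝ) :
    affineWordMap r t (l.map List.ofFn).flatten x = affineWordMap (wp r) (wt r t) l x := by
  induction l with
  | nil => rfl
  | cons i l ih =>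
    rw [List.map_cons, List.flatten_cons, word_append, ih, word_map]
    rfl

variable [Fintype ι] {p r t : ι → ℝ}

theorem cme_block (n k : ℕ) :
    composedMapEntropy (wp r (n := k)) (wt r t) (wp p) n = composedMapEntropy r t p (n * k) := by
  let e : (Fin (n * k) → ι) ≃ (Fin n → Fin k → ι) :=
    (Equiv.arrowCongr finProdFinEquiv.symm (Equiv.refl ι)).trans (Equiv.curry _ _ _)
  have he : ∀ w i j, e w i j = w (finProdFinEquiv (i, j)) := fun _ _ _ => rfl
  unfold composedMapEntropy
  rw [← fle_equiv e]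
  congr 1
  · funext w
    simp only [wp, he]
    rw [← Fintype.prod_prod_type' (fun i j => p (w (finProdFinEquiv (i, j)))),
      Equiv.prod_comp finProdFinEquiv (fun x => p (w x))]
  · funext w x
    rw [← word_flatten, List.map_ofFn, List.ofFn_mul]
    congr 3
    funext i
    simp only [Function.comp]
    congr 1
    funext j
    rw [he]
    congr 1
    apply Fin.ext
    simp only [finProdFinEquiv_apply_val]
    ring

theorem rate_le (hp : PV p) {N : ℕ} (hN : 1 ≤ N) :
    rwEntropyRate r t p * N ≤ composedMapEntropy r t p N := by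
  obtain ⟨m, rfl⟩ : ∃ m, N = m + 1 := ⟨N - 1, by omega⟩
  have h := ciInf_le (f := fun m : ℕ => composedMapEntropy r t p (m + 1) / ((m : ℝ) + 1))
    ⟨0, by
      rintro _ ⟨m, rfl⟩
      exact div_nonneg (fle_nonneg (hp.wp _) _) (by positivity)⟩ m
  rw [le_div_iff₀ (by positivity)] at h
  push_cast
  exact h

theorem card_ratio (k : ℕ) :
    (Finset.univ.image (wp r (n := k))).card ≤ (k + 1) ^ Fintype.card ι := by
  classical
  have h1 : Finset.univ.image (wp r (n := k)) ⊆
      (Fintype.piFinset fun _ : ι => Finset.range (k + 1)).image (fun c => ∏ i, r i ^ c i) := by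
    intro x hx
    obtain ⟨w, -, rfl⟩ := Finset.mem_image.1 hx
    refine Finset.mem_image.2 ⟨fun i => (Finset.univ.filter (fun j => w j = i)).card,
      Fintype.mem_piFinset.2 (fun i => Finset.mem_range.2 (Nat.lt_succ_of_le ?_)), ?_⟩
    · simpa using Finset.card_filter_le Finset.univ (fun j => w j = i)
    · rw [wp, ← Finset.prod_fiberwise' Finset.univ w r]
      simp only [Finset.prod_const]
  refine (Finset.card_le_card h1).trans (Finset.card_image_le.trans (le_of_eq ?_))
  rw [Fintype.card_piFinset, Finset.prod_const, Finset.card_range, Finset.card_univ]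

theorem cme_le_HW (hp : PV p) (hp0 : ∀ i, 0 < p i) {N : ℕ} (hN0 : 0 < N)
    (hN : (Finset.univ.image r).card ≤ N) (n : ℕ) :
    composedMapEntropy r t p n ≤ n * log N + HW p r t n := by
  classical
  rw [← Real.log_pow]
  refine entropy_env (hp.wp n) (wp_pos hp0) (envW r n) (wt r t) _ (fun a b h1 h2 => ?_)
    (by positivity) ?_
  · funext x
    rw [word_map, word_map, h2]
    congr 2
    exact Finset.prod_congr rfl (fun j _ => congrFun h1 j)
  · have h1 : EE (envW r n) ⊆ Fintype.piFinset fun _ : Fin n => Finset.univ.image r := by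
      intro x hx
      obtain ⟨w, -, rfl⟩ := Finset.mem_image.1 hx
      exact Fintype.mem_piFinset.2 (fun j => Finset.mem_image_of_mem _ (Finset.mem_univ _))
    have h2 := Finset.card_le_card h1
    rw [Fintype.card_piFinset, Finset.prod_const, Finset.card_univ, Fintype.card_fin] at h2
    exact_mod_cast h2.trans (Nat.pow_le_pow_left hN n)

theorem lower [Nonempty ι] {μ : Measure ℝ} [IsProbabilityMeasure μ] (h : SS μ p r t) (hp : PV p)
    (hp0 : ∀ i, 0 < p i) (hr : ∀ i, r i ≠ 0 ∧ |r i| < 1) {α : ℝ} (hα1 : α < 1)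
    (hα2 : α < rwEntropyRate r t p / lyapunovExp r p) :
    ENNReal.ofReal α ≤ lowerHausdorffDim μ := by
  classical
  have hχ : 0 < lyapunovExp r p := neg_pos.2 (Finset.sum_neg (fun i _ => mul_neg_of_pos_of_neg
    (hp0 i) (Real.log_neg (abs_pos.2 (hr i).1) (hr i).2)) Finset.univ_nonempty)
  rw [lt_div_iff₀ hχ] at hα2
  set g := rwEntropyRate r t p - α * lyapunovExp r p with hg
  have hg0 : 0 < g := sub_pos.2 hα2
  obtain ⟨k, hk1, hk⟩ : ∃ k : ℕ, 1 ≤ k ∧ Fintype.card ι * log (k + 1) < k * g := by
    have t1 : Tendsto (fun k : ℕ => log ((k : ℝ) + 1) / ((k : ℝ) + 1)) atTop (𝓝 0) :=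
      Real.isLittleO_log_id_atTop.tendsto_div_nhds_zero.comp
        (tendsto_atTop_add_const_right _ 1 tendsto_natCast_atTop_atTop)
    have t2 := t1.const_mul (Fintype.card ι : ℝ)
    rw [mul_zero] at t2
    obtain ⟨k, h1, h2⟩ := ((eventually_ge_atTop 1).and
      (t2.eventually (gt_mem_nhds (half_pos hg0)))).exists
    refine ⟨k, h1, ?_⟩
    have h3 : (1 : ℝ) ≤ k := by exact_mod_cast h1
    rw [← mul_div_assoc, div_lt_iff₀ (by positivity)] at h2
    nlinarith
  obtain ⟨c, R, hc, hR, hcR⟩ := exists_bounds hr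
  obtain ⟨c', R', hc', hR', hcR'⟩ := exists_bounds (r := wp r (n := k)) (fun w => by
    refine ⟨Finset.prod_ne_zero_iff.2 (fun _ _ => (hr _).1), ?_⟩
    have hR0 : 0 ≤ R := (abs_nonneg _).trans (hcR (Classical.arbitrary ι)).2
    rw [wp, Finset.abs_prod]
    refine lt_of_le_of_lt ?_ (pow_lt_one₀ hR0 hR (by omega : k ≠ 0))
    have := Finset.prod_le_prod (s := Finset.univ) (f := fun j => |r (w j)|)
      (g := fun _ : Fin k => R) (fun _ _ => abs_nonneg _) (fun j _ => (hcR _).2)
    simpa using this)
  have hχk : lyapunovExp (wp r (n := k)) (wp p) = k * lyapunovExp r p := by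
    unfold lyapunovExp
    rw [mul_neg, ← UpperAux.sum_wp_mul hp (fun i => log |r i|) k]
    congr 1
    refine Finset.sum_congr rfl (fun w _ => ?_)
    rw [wp.eq_def r, Finset.abs_prod, Real.log_prod (fun j _ => abs_ne_zero.2 (hr _).1)]
  refine lower_of_entropy h hp hc hR hcR
    (entropy_lower (h.iter hp.nonneg k) (hp.wp k) (wp_pos hp0) hc' hR' hcR'
      (h' := k * rwEntropyRate r t p - Fintype.card ι * log (k + 1)) (fun n hn => ?_) hα1 ?_)
  · have h1 := cme_le_HW (t := wt r t) (hp.wp k) (wp_pos hp0) (by positivity) (card_ratio (r := r) k) n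
    have h2 := rate_le (r := r) (t := t) hp (N := n * k) (Nat.mul_pos hn hk1)
    rw [cme_block] at h1
    push_cast at h1 h2
    rw [Real.log_pow] at h1
    linarith
  · rw [hχk]
    rw [hg] at hk
    linarith

end Crest.Agent.R98
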