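import Crest.Agent.R98.Cdf
import Crest.Agent.R155.WalkA

/-! Row 98: sums of many two-point variables are flat. -/

set_option autoImplicit false

namespace Crest.Agent.R98

open MeasureTheory Finset Real Crest.Agent.R155 Crest.Agent.R155.Walk

/-- `L¹` distance. -/
noncomputable def nd (f g : ℝ → ℝ) : ℝ := ∫ y, |f y - g y|

theorem nd_comm (f g : ℝ → ℝ) : nd f g = nd g f := by
  simp only [nd, abs_sub_comm]

theorem nd_tri {f g h : ℝ → ℝ} (hf : Integrable f) (hg : Integrable g) (hh : Integrable h) :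
    nd f h ≤ nd f g + nd g h := by
  have i1 : Integrable (fun y => |f y - g y|) := (hf.sub hg).abs
  have i2 : Integrable (fun y => |g y - h y|) := (hg.sub hh).abs
  unfold nd
  rw [← integral_add i1 i2]
  exact integral_mono (hf.sub hh).abs (i1.add i2) (fun y => abs_sub_le _ _ _)

theorem nd_shift (f g : ℝ → ℝ) (b : ℝ) : nd (fun y => f (y - b)) (fun y => g (y - b)) = nd f g :=
  integral_sub_right_eq_self (fun y => |f y - g y|) b

theorem abs_sum_int {ι : Type*} [Fintype ι] (c : ι → ℝ) {g : ι → ℝ → ℝ}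
    (hg : ∀ i, Integrable (g i)) : ∫ y, |∑ i, c i * g i y| ≤ ∑ i, |c i| * ∫ y, |g i y| := by
  simp only [← integral_const_mul]
  rw [← integral_finsetSum _ (fun i _ => (hg i).abs.const_mul _)]
  refine integral_mono (integrable_finsetSum _ (fun i _ => (hg i).const_mul _)).abs
    (integrable_finsetSum _ (fun i _ => (hg i).abs.const_mul _)) (fun y => ?_)
  simp only [← abs_mul]
  exact Finset.abs_sum_le_sum_abs _ _

theorem av_eq_sum {ι : Type*} [Fintype ι] (f : ι → ℝ) :
    av f = ∑ i, (Fintype.card ι : ℝ)⁻¹ * f i := by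
  rw [av, ← Finset.mul_sum, div_eq_inv_mul]

theorem int_av {ι : Type*} [Fintype ι] {g : ι → ℝ → ℝ} (hg : ∀ i, Integrable (g i)) :
    Integrable (fun y => av (fun i => g i y)) := by
  simp only [av_eq_sum]
  exact integrable_finsetSum _ (fun i _ => (hg i).const_mul _)

theorem abs_av_int {ι : Type*} [Fintype ι] {g : ι → ℝ → ℝ} (hg : ∀ i, Integrable (g i)) :
    ∫ y, |av (fun i => g i y)| ≤ av (fun i => ∫ y, |g i y|) := by
  simp only [av_eq_sum]
  refine (abs_sum_int _ hg).trans (le_of_eq ?_)
  simp only [abs_inv, Nat.abs_cast]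

theorem av_sub {ι : Type*} [Fintype ι] (f g : ι → ℝ) : av (fun i => f i - g i) = av f - av g := by
  unfold av
  rw [Finset.sum_sub_distrib, sub_div]

/-- The value of a random subset sum. -/
def WW {N : ℕ} (d : Fin N → ℝ) (B : Fin N → Bool) : ℝ := ∑ i, if B i then d i else 0

/-- Convolution with a random subset sum. -/
noncomputable def PA {N : ℕ} (d : Fin N → ℝ) (G : ℝ → ℝ) (y : ℝ) : ℝ :=
  av (fun B : Fin N → Bool => G (y - WW d B))

theorem int_PA {N : ℕ} (d : Fin N → ℝ) {G : ℝ → ℝ} (hG : Integrable G) : Integrable (PA d G) :=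
  int_av (fun _ => hG.comp_sub_right _)

theorem nd_PA {N : ℕ} (d d' : Fin N → ℝ) {G : ℝ → ℝ} (hG : Integrable G)
    (hL : ∀ a b, nd (fun y => G (y - a)) (fun y => G (y - b)) ≤ 2 * |a - b|) (a b : ℝ) {C : ℝ}
    (hC : ∀ B, |a + WW d B - (b + WW d' B)| ≤ C) :
    nd (fun y => PA d G (y - a)) (fun y => PA d' G (y - b)) ≤ 2 * C := by
  unfold nd PA
  simp only [← av_sub, sub_sub]
  refine (abs_av_int (g := fun B y => G (y - (a + WW d B)) - G (y - (b + WW d' B)))
    (fun B => (hG.comp_sub_right _).sub (hG.comp_sub_right _))).trans ?_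
  rw [← av_const (ι := Fin N → Bool) (2 * C)]
  exact av_mono (fun B => (hL _ _).trans (by linarith [hC B]))

theorem one_step {N : ℕ} (d : Fin N → ℝ) {G : ℝ → ℝ} (hG : Integrable G) {R : ℝ}
    (hR : ∫ y, |G y| ≤ R) {m : ℕ} (hm : 0 < m) (S : Finset (Fin N)) (hS : S.card = m ^ 2)
    {d0 : ℝ} (hd : ∀ i ∈ S, d i = d0) : nd (fun y => PA d G (y - d0)) (PA d G) ≤ 2 * R / m := by
  have hm0 : (0 : ℝ) < m := by exact_mod_cast hm
  have hR0 : 0 ≤ R := (integral_nonneg (fun _ => abs_nonneg _)).trans hR
  have hflip : ∀ i B, WW d (flipc i B) = WW d B + sg (B i) * d i := by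
    intro i B
    unfold WW
    rw [← Finset.add_sum_erase _ _ (Finset.mem_univ i), ← Finset.add_sum_erase _ _
      (Finset.mem_univ i), Finset.sum_congr rfl (fun j hj => by
        rw [flipc, Function.update_of_ne (Finset.ne_of_mem_erase hj)])]
    simp only [flipc, Function.update_self]
    cases B i <;> simp [sg]
    ring
  have h1 : ∀ i ∈ S, ∀ y, PA d G (y - d0) - PA d G y =
      av (fun B => -sg (B i) * (G (y - d0 - WW d B) + G (y - WW d B))) := by
    intro i hi y
    have h2 := av_flip i (fun B => (1 - sg (B i)) * G (y - WW d B))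
    have h3 : (fun B => (fun B => (1 - sg (B i)) * G (y - WW d B)) (flipc i B)) =
        fun B => (1 + sg (B i)) * G (y - d0 - WW d B) := by
      funext B
      simp only [hflip, hd i hi]
      simp only [flipc, Function.update_self]
      cases B i
      · simp only [sg, Bool.not_false, if_true, Bool.false_eq_true, if_false, one_mul]
        rw [show y - (WW d B + d0) = y - d0 - WW d B by ring]
        ring
      · simp [sg]
    rw [h3] at h2
    have h4 := av_sub (fun B => (1 + sg (B i)) * G (y - d0 - WW d B))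
      (fun B => (1 - sg (B i)) * G (y - WW d B))
    rw [h2, sub_self] at h4
    unfold PA
    rw [← av_sub, ← sub_eq_zero, ← av_sub, ← h4]
    congr 1
    funext B
    ring
  let δ : Fin N → ℝ := fun i => if i ∈ S then 1 / m ^ 2 else 0
  let Z : (Fin N → Bool) → ℝ := fun B => ∑ i, sg (B i) * δ i
  have h5 : ∀ y, PA d G (y - d0) - PA d G y =
      av (fun B => -Z B * (G (y - d0 - WW d B) + G (y - WW d B))) := by
    intro y
    have h6 : ∑ i, δ i * (PA d G (y - d0) - PA d G y) = PA d G (y - d0) - PA d G y := by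
      rw [← Finset.sum_mul]
      simp only [δ, Finset.sum_ite_mem, Finset.univ_inter, Finset.sum_const, hS, nsmul_eq_mul]
      push_cast
      field_simp
    rw [← h6]
    simp only [Z, ← Finset.sum_neg_distrib, Finset.sum_mul, av_sum]
    refine Finset.sum_congr rfl (fun i _ => ?_)
    by_cases hi : i ∈ S
    · rw [h1 i hi, ← av_const_mul]
      congr 1
      funext B
      ring
    · simp [δ, hi, av]
  have hZ : av (fun B => Z B ^ 2) = 1 / m ^ 2 := by
    rw [av_sq_sum]
    simp only [δ, ite_pow, ne_eq, OfNat.ofNat_ne_zero, not_false_eq_true, zero_pow,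
      Finset.sum_ite_mem, Finset.univ_inter, Finset.sum_const, hS, nsmul_eq_mul]
    push_cast
    field_simp
  unfold nd
  simp only [h5]
  have hi : ∀ B, Integrable (fun y => G (y - d0 - WW d B) + G (y - WW d B)) := fun B =>
    ((hG.comp_sub_right _).comp_sub_right d0).add (hG.comp_sub_right _)
  refine (abs_av_int (g := fun B y => -Z B * (G (y - d0 - WW d B) + G (y - WW d B)))
    (fun B => (hi B).const_mul _)).trans ?_
  have h7 : ∀ B, ∫ y, |-Z B * (G (y - d0 - WW d B) + G (y - WW d B))| ≤
      R * m * Z B ^ 2 + R / m := by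
    intro B
    simp only [abs_mul, abs_neg, integral_const_mul]
    have i1 : Integrable (fun y => |G (y - d0 - WW d B)|) :=
      ((hG.comp_sub_right _).comp_sub_right d0).abs
    have i2 : Integrable (fun y => |G (y - WW d B)|) := (hG.comp_sub_right _).abs
    have h8 : ∫ y, |G (y - d0 - WW d B) + G (y - WW d B)| ≤ 2 * R := by
      refine (integral_mono (hi B).abs (i1.add i2) (fun y => abs_add_le _ _)).trans ?_
      erw [integral_add i1 i2]
      simp only [sub_sub]
      rw [integral_sub_right_eq_self (fun y => |G y|), integral_sub_right_eq_self (fun y => |G y|)]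
      linarith
    have h9 : 2 * |Z B| ≤ m * Z B ^ 2 + 1 / m := by
      have h10 : 0 ≤ (m * |Z B| - 1) ^ 2 / m := by positivity
      have h11 : (m * |Z B| - 1) ^ 2 / m = m * |Z B| ^ 2 - 2 * |Z B| + 1 / m := by
        field_simp
        ring
      rw [h11, sq_abs] at h10
      linarith
    have h12 := mul_le_mul_of_nonneg_left h8 (abs_nonneg (Z B))
    have h13 := mul_le_mul_of_nonneg_left h9 hR0
    rw [mul_add, mul_one_div] at h13
    linarith
  refine (av_mono h7).trans (le_of_eq ?_)
  rw [av_add, av_const_mul, hZ, av_const]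
  field_simp
  ring

theorem clt {G : ℝ → ℝ} (hG : Integrable G) {R : ℝ} (hR : ∫ y, |G y| ≤ R)
    (hL : ∀ a b, nd (fun y => G (y - a)) (fun y => G (y - b)) ≤ 2 * |a - b|) {r δ : ℝ}
    (hδ : 0 < δ) (hr : 0 < r) {m : ℕ} (hm : 0 < m) {N : ℕ} (hN : 3 * m ^ 4 ≤ N) (d : Fin N → ℝ)
    (hd : ∀ i, δ ≤ d i ∧ d i ≤ 2 * r) :
    nd (PA d G) (fun y => PA d G (y - R)) ≤ 8 * r + 2 * R ^ 2 / (δ * m) := by
  classical
  have hm0 : (0 : ℝ) < m := by exact_mod_cast hm
  have hR0 : 0 ≤ R := (integral_nonneg (fun _ => abs_nonneg _)).trans hR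
  set γ : ℝ := r / m ^ 2 with hγ
  have hγ0 : 0 < γ := by positivity
  obtain ⟨k, -, hk⟩ := Finset.exists_le_card_fiber_of_mul_le_card_of_maps_to
    (s := (Finset.univ : Finset (Fin N))) (t := Finset.range (2 * m ^ 2 + 1))
    (f := fun i => ⌊d i / γ⌋₊) (n := m ^ 2) (fun i _ => by
      rw [Finset.mem_range, Nat.lt_succ_iff]
      refine Nat.floor_le_of_le ?_
      rw [div_le_iff₀ hγ0, hγ]
      push_cast
      rw [mul_assoc, mul_div_cancel₀ _ (by positivity)]
      exact (hd i).2) ⟨0, by simp⟩ (by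
      rw [Finset.card_range, Finset.card_univ, Fintype.card_fin]
      have : 1 ≤ m ^ 2 := Nat.one_le_pow _ _ hm
      nlinarith)
  obtain ⟨S, hS1, hS⟩ := Finset.exists_subset_card_eq hk
  obtain ⟨i0, hi0⟩ : S.Nonempty := Finset.card_pos.1 (by rw [hS]; positivity)
  set d0 := d i0 with hd0
  have hd0' : 0 < d0 := hδ.trans_le (hd i0).1
  have hbin : ∀ i ∈ S, (k : ℝ) * γ ≤ d i ∧ d i < (k + 1) * γ := by
    intro i hi
    have h1 : ⌊d i / γ⌋₊ = k := (Finset.mem_filter.1 (hS1 hi)).2
    have h2 : 0 ≤ d i / γ := div_nonneg (hδ.le.trans (hd i).1) hγ0.le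
    rw [← h1, ← le_div_iff₀ hγ0, ← div_lt_iff₀ hγ0]
    exact ⟨Nat.floor_le h2, Nat.lt_floor_add_one _⟩
  let d' : Fin N → ℝ := fun i => if i ∈ S then d0 else d i
  have hW : ∀ B, |WW d B - WW d' B| ≤ r := by
    intro B
    unfold WW
    rw [← Finset.sum_sub_distrib]
    refine (Finset.abs_sum_le_sum_abs _ _).trans ?_
    have h1 : ∀ i, |(if B i then d i else 0) - if B i then d' i else 0| ≤
        if i ∈ S then γ else 0 := by
      intro i
      by_cases hi : i ∈ S
      · have h2 := hbin i hi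
        have h3 := hbin i0 hi0
        simp only [d', if_pos hi]
        split_ifs
        · exact abs_le.2 ⟨by linarith [h2.1, h3.2], by linarith [h2.2, h3.1]⟩
        · simpa using hγ0.le
      · simp [d', hi]
    refine (Finset.sum_le_sum (fun i _ => h1 i)).trans (le_of_eq ?_)
    simp only [Finset.sum_ite_mem, Finset.univ_inter, Finset.sum_const, hS, nsmul_eq_mul, hγ]
    push_cast
    field_simp
  have hX := int_PA d' hG
  have hP := int_PA d hG
  have s1 := one_step d' hG hR hm S hS (d0 := d0) (fun i hi => if_pos hi)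
  have sj : ∀ j : ℕ, nd (PA d' G) (fun y => PA d' G (y - j * d0)) ≤ j * (2 * R / m) := by
    intro j
    induction j with
    | zero => simp [nd]
    | succ j ih =>
      have h1 := nd_shift (PA d' G) (fun y => PA d' G (y - d0)) (j * d0)
      rw [nd_comm (PA d' G)] at h1
      have h2 := nd_tri hX (hX.comp_sub_right (j * d0))
        ((hX.comp_sub_right d0).comp_sub_right (j * d0))
      push_cast
      simp only [show ∀ y : ℝ, y - (j + 1) * d0 = y - j * d0 - d0 from fun y => by ring]
      linarith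
  set j := ⌊R / d0⌋₊ with hj
  have hj1 : (j : ℝ) * d0 ≤ R := by
    rw [← le_div_iff₀ hd0']
    exact Nat.floor_le (by positivity)
  have hj2 : R < (j + 1) * d0 := by
    rw [← div_lt_iff₀ hd0']
    exact Nat.lt_floor_add_one _
  have t1 := nd_PA d d' hG hL 0 0 (C := r) (fun B => by simpa using hW B)
  have t3 := nd_PA d' d hG hL (j * d0) R (C := 3 * r) (fun B => by
    have := abs_le.1 (hW B)
    have h2 := (hd i0).2
    exact abs_le.2 ⟨by linarith [this.2], by linarith [this.1]⟩)
  simp only [sub_zero] at t1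
  have t4 := nd_tri hP hX (hP.comp_sub_right R)
  have t5 := nd_tri hX (hX.comp_sub_right (j * d0)) (hP.comp_sub_right R)
  have t6 : (j : ℝ) * (2 * R / m) ≤ 2 * R ^ 2 / (δ * m) := by
    have h1 : (j : ℝ) * δ ≤ R := (mul_le_mul_of_nonneg_left (hd i0).1 (Nat.cast_nonneg j)).trans hj1
    rw [← mul_div_assoc, div_le_div_iff₀ hm0 (by positivity)]
    nlinarith [mul_le_mul_of_nonneg_right h1 (show 0 ≤ 2 * R * m by positivity)]
  have t7 := sj j
  change nd (PA d G) (PA d' G) ≤ _ at t1
  linarith

/-- The flatness predicate: after adding any `N` admissible two-point variables, the law is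
`(β + x / 2 ^ N)`-flat at scale `R`. -/
def Bd (r δ R : ℝ) (F : ℝ → ℝ) (x β : ℝ) : Prop :=
  ∀ (N : ℕ) (d : Fin N → ℝ), (∀ i, δ ≤ d i ∧ d i ≤ 2 * r) →
    nd (PA d (win F R)) (fun y => PA d (win F R) (y - R)) ≤ 2 * R * (β + x / 2 ^ N)

section bd

variable {r δ R : ℝ} {F : ℝ → ℝ}

theorem Bd.mono {x β x' β' : ℝ} (h : Bd r δ R F x β) (hR : 0 ≤ R) (hx : x ≤ x') (hβ : β ≤ β') :
    Bd r δ R F x' β' := fun N d hd =>
  (h N d hd).trans (mul_le_mul_of_nonneg_left
    (add_le_add hβ (div_le_div_of_nonneg_right hx (by positivity))) (by linarith))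

theorem nd_triv (hF : IsCdf F) (hR : 0 ≤ R) {N : ℕ} (d : Fin N → ℝ) :
    nd (PA d (win F R)) (fun y => PA d (win F R) (y - R)) ≤ 2 * R := by
  have hP := int_PA d (hF.int_win R)
  have h1 : ∫ y, |PA d (win F R) y| ≤ R := by
    refine (abs_av_int (fun B => (hF.int_win R).comp_sub_right _)).trans (le_of_eq ?_)
    simp only [integral_sub_right_eq_self (fun y => |win F R y|), hF.integral_abs_win,
      abs_of_nonneg hR, av_const]
  have h2 := nd_tri hP (integrable_zero ℝ ℝ volume) (hP.comp_sub_right R)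
  have h3 : nd (PA d (win F R)) 0 = ∫ y, |PA d (win F R) y| := by simp [nd]
  have h4 : nd 0 (fun y => PA d (win F R) (y - R)) = ∫ y, |PA d (win F R) y| := by
    simp only [nd, Pi.zero_apply, zero_sub, abs_neg]
    exact integral_sub_right_eq_self (fun y => |PA d (win F R) y|) R
  linarith

theorem bd_triv (hF : IsCdf F) (hR : 0 ≤ R) : Bd r δ R F 0 1 := fun N d _ => by
  simpa using nd_triv hF hR d

theorem win_lip (hF : IsCdf F) (R a b : ℝ) :
    nd (fun y => win F R (y - a)) (fun y => win F R (y - b)) ≤ 2 * |a - b| := by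
  have i1 : Integrable (fun y => |win F (b - a) (y - a)|) := ((hF.int_win _).comp_sub_right _).abs
  have i2 : Integrable (fun y => |win F (b - a) (y - (a + R))|) :=
    ((hF.int_win _).comp_sub_right _).abs
  refine (integral_mono (((hF.int_win R).comp_sub_right a).sub
    ((hF.int_win R).comp_sub_right b)).abs (i1.add i2) (fun y => ?_)).trans ?_
  · refine le_of_eq_of_le ?_ (abs_sub _ _)
    simp only [win, Pi.sub_apply]
    rw [show y - a - (b - a) = y - b by ring, show y - (a + R) - (b - a) = y - b - R by ring,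
      show y - (a + R) = y - a - R by ring]
    congr 1
    ring
  · erw [integral_add i1 i2]
    rw [integral_sub_right_eq_self (fun y => |win F (b - a) y|),
      integral_sub_right_eq_self (fun y => |win F (b - a) y|), hF.integral_abs_win, abs_sub_comm]
    linarith

theorem bd_base (hF : IsCdf F) (hR : 0 < R) (hδ : 0 < δ) (hr : 0 < r) {m : ℕ} (hm : 0 < m) {a : ℕ}
    (ha : 3 * m ^ 4 ≤ a) : Bd r δ R F (2 ^ a) (4 * r / R + R / (δ * m)) := by
  intro N d hd
  have hm0 : (0 : ℝ) < m := by exact_mod_cast hm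
  rcases le_total a N with h | h
  · refine (clt (hF.int_win R) (by rw [hF.integral_abs_win, abs_of_pos hR]) (win_lip hF R) hδ hr
      hm (ha.trans h) d hd).trans ?_
    have e : 8 * r + 2 * R ^ 2 / (δ * m) = 2 * R * (4 * r / R + R / (δ * m)) := by
      field_simp
      ring
    rw [e]
    exact mul_le_mul_of_nonneg_left (le_add_of_nonneg_right (by positivity)) (by linarith)
  · refine (nd_triv hF hR.le d).trans (le_mul_of_one_le_right (by linarith) ?_)
    have h1 : (1 : ℝ) ≤ 2 ^ a / 2 ^ N := by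
      rw [one_le_div (by positivity)]
      exact pow_le_pow_right₀ one_le_two h
    have h2 : 0 ≤ 4 * r / R + R / (δ * m) := by positivity
    linarith

theorem bd_mix {A : Type*} [Fintype A] {q : A → ℝ} (hq : ∀ a, 0 ≤ q a) (b : A → ℝ)
    {G : A → ℝ → ℝ} (hG : ∀ a, IsCdf (G a)) {x β : A → ℝ}
    (h : ∀ a, q a ≠ 0 → Bd r δ R (G a) (x a) (β a)) (hF : ∀ y, F y = ∑ a, q a * G a (y - b a)) :
    Bd r δ R F (∑ a, q a * x a) (∑ a, q a * β a) := by
  intro N d hd
  have e : ∀ y, PA d (win F R) y = ∑ a, q a * PA d (win (G a) R) (y - b a) := by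
    intro y
    simp only [PA, win, hF, ← av_const_mul, ← av_sum, mul_sub, Finset.sum_sub_distrib]
    congr 1
    funext B
    simp only [sub_right_comm _ (b _)]
  have hi : ∀ a, Integrable
      (fun y => PA d (win (G a) R) (y - b a) - PA d (win (G a) R) (y - R - b a)) := fun a =>
    ((int_PA d ((hG a).int_win R)).comp_sub_right _).sub
      (((int_PA d ((hG a).int_win R)).comp_sub_right _).comp_sub_right R)
  unfold nd
  simp only [e, ← Finset.sum_sub_distrib, ← mul_sub]
  refine (abs_sum_int q hi).trans ?_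
  rw [Finset.sum_div, ← Finset.sum_add_distrib, Finset.mul_sum]
  refine Finset.sum_le_sum (fun a _ => ?_)
  by_cases ha : q a = 0
  · simp [ha]
  have h1 := h a ha N d hd
  rw [← nd_shift _ _ (b a)] at h1
  simp only [nd, sub_right_comm _ (b a) R] at h1
  rw [abs_of_nonneg (hq a)]
  refine (mul_le_mul_of_nonneg_left h1 (hq a)).trans (le_of_eq ?_)
  ring

/-- Two-point average. -/
noncomputable def A2 (e : ℝ) (F : ℝ → ℝ) (y : ℝ) : ℝ := (F y + F (y - e)) / 2

theorem IsCdf.A2 (hF : IsCdf F) (e : ℝ) : IsCdf (A2 e F) := by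
  have h := hF.conv (A := Bool) (q := fun _ => 1 / 2) ⟨fun _ => by norm_num, by simp⟩
    (fun c => if c then e else 0)
  convert h using 1
  funext y
  simp [Crest.Agent.R98.A2, Crest.Agent.R98.conv]
  ring

theorem Bd.A2 {x β e : ℝ} (h : Bd r δ R F x β) (he : δ ≤ e ∧ e ≤ 2 * r) :
    Bd r δ R (A2 e F) (x / 2) β := by
  intro N d hd
  have h1 := h (N + 1) (Fin.snoc d e) (fun i => by
    refine Fin.lastCases ?_ (fun j => ?_) i
    · simpa using he
    · simpa using hd j)
  have e1 : ∀ y, PA (Fin.snoc d e : Fin (N + 1) → ℝ) (win F R) y =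
      PA d (win (Crest.Agent.R98.A2 e F) R) y := by
    intro y
    have h2 := av_snoc (fun (B : Fin N → Bool) (c : Bool) =>
      win F R (y - (WW d B + if c then e else 0)))
    unfold PA
    refine Eq.trans ?_ (h2.trans ?_)
    · congr 1
      funext B
      simp [WW, Fin.sum_univ_castSucc]
    · congr 1
      funext B
      simp only [av, win, Crest.Agent.R98.A2, Fintype.univ_bool, Finset.mem_singleton,
        Bool.true_eq_false, not_false_eq_true, Finset.sum_insert, if_true, Finset.sum_singleton,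
        Bool.false_eq_true, if_false, add_zero, Fintype.card_bool, Nat.cast_ofNat]
      rw [show y - (WW d B + e) = y - WW d B - e by ring,
        show y - WW d B - e - R = y - WW d B - R - e by ring]
      ring
  rw [show PA (Fin.snoc d e : Fin (N + 1) → ℝ) (win F R) = _ from funext e1] at h1
  rwa [div_div, ← pow_succ']

theorem Bd.inc {x β : ℝ} (h : Bd r δ R F x β) (hF : IsCdf F) (hR : 0 < R) :
    (1 - (β + x)) * log 2 ≤ Hs F R - Hs F (2 * R) := by
  refine hF.inc_ge hR ?_
  have h1 := h 0 Fin.elim0 (fun i => i.elim0)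
  simpa [nd, PA, WW, av_const] using h1

end bd

end Crest.Agent.R98
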