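import Crest.Agent.R98.Defs

/-! Row 98: averaged entropy of distribution functions. -/

set_option autoImplicit false

namespace Crest.Agent.R98

open MeasureTheory Finset Real

theorem integrable_of_bdd {g : ℝ → ℝ} (hm : Measurable g) {C M : ℝ} (hb : ∀ y, |g y| ≤ C)
    (hz : ∀ y, M < |y| → g y = 0) : Integrable g := by
  have h1 : IntegrableOn g (Set.Icc (-M) M) :=
    Measure.integrableOn_of_bounded (M := C) measure_Icc_lt_top.ne hm.aestronglyMeasurable
      (Filter.Eventually.of_forall (fun y => hb y))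
  refine (integrableOn_iff_integrable_of_support_subset (fun y hy => ?_)).1 h1
  by_contra h
  exact hy (hz y (not_le.1 (fun h2 => h (abs_le.1 h2))))

theorem phi_abs_le {x : ℝ} (h0 : 0 ≤ x) (h1 : x ≤ 1) : |negMulLog x| ≤ 1 := by
  rw [abs_of_nonneg (negMulLog_nonneg h0 h1)]
  linarith [negMulLog_le_one_sub_self h0]

/-- The Heaviside function. -/
noncomputable def heav (y : ℝ) : ℝ := if 0 ≤ y then 1 else 0

/-- Convolution with a discrete law. -/
def conv {A : Type*} [Fintype A] (q Y : A → ℝ) (F : ℝ → ℝ) (y : ℝ) : ℝ := ∑ a, q a * F (y - Y a)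

theorem isCdf_heav : IsCdf heav := by
  refine ⟨fun x y h => ?_, 1, fun y => ⟨fun h => if_neg (by linarith), fun h => if_pos (by linarith)⟩⟩
  unfold heav
  split_ifs with h1 h2
  · exact le_rfl
  · exact absurd (h1.trans h) h2
  · exact zero_le_one
  · exact le_rfl

theorem isCdf_mix {A : Type*} [Fintype A] {q : A → ℝ} (hq : PV q) (b : A → ℝ) {F : A → ℝ → ℝ}
    (hF : ∀ a, IsCdf (F a)) : IsCdf (fun y => ∑ a, q a * F a (y - b a)) := by
  refine ⟨fun x y h => Finset.sum_le_sum (fun a _ => mul_le_mul_of_nonneg_left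
    ((hF a).mono (by linarith)) (hq.nonneg a)), ?_⟩
  choose M hM using fun a => (hF a).bd
  refine ⟨∑ a, (|M a| + |b a|), fun y => ⟨fun h => ?_, fun h => ?_⟩⟩
  · refine Finset.sum_eq_zero (fun a _ => ?_)
    have := Finset.single_le_sum (f := fun a => |M a| + |b a|) (fun _ _ => by positivity)
      (Finset.mem_univ a)
    rw [(hM a _).1 (by linarith [le_abs_self (M a), neg_abs_le (b a)]), mul_zero]
  · rw [← hq.sum]
    refine Finset.sum_congr rfl (fun a _ => ?_)
    have := Finset.single_le_sum (f := fun a => |M a| + |b a|) (fun _ _ => by positivity)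
      (Finset.mem_univ a)
    rw [(hM a _).2 (by linarith [le_abs_self (M a), le_abs_self (b a)]), mul_one]

namespace IsCdf

variable {F : ℝ → ℝ} (hF : IsCdf F)
include hF

theorem conv {A : Type*} [Fintype A] {q : A → ℝ} (hq : PV q) (Y : A → ℝ) : IsCdf (conv q Y F) :=
  isCdf_mix hq Y (fun _ => hF)

theorem nonneg (y : ℝ) : 0 ≤ F y := by
  obtain ⟨M, hM⟩ := hF.bd
  rw [← (hM (min y (-M))).1 (min_le_right _ _)]
  exact hF.mono (min_le_left _ _)

theorem le_one (y : ℝ) : F y ≤ 1 := by
  obtain ⟨M, hM⟩ := hF.bd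
  rw [← (hM (max y M)).2 (le_max_right _ _)]
  exact hF.mono (le_max_left _ _)

theorem meas : Measurable F := hF.mono.measurable

theorem win_nonneg {s : ℝ} (hs : 0 ≤ s) (y : ℝ) : 0 ≤ win F s y :=
  sub_nonneg.2 (hF.mono (by linarith))

theorem win_le_one (s y : ℝ) : win F s y ≤ 1 := by
  unfold win
  linarith [hF.le_one y, hF.nonneg (y - s)]

theorem meas_win (s : ℝ) : Measurable (win F s) :=
  hF.meas.sub (hF.meas.comp (measurable_id.sub_const s))

theorem win_zero (s : ℝ) : ∃ M : ℝ, ∀ y, M < |y| → win F s y = 0 := by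
  obtain ⟨M, hM⟩ := hF.bd
  refine ⟨|M| + |s|, fun y hy => ?_⟩
  unfold win
  have h1 := le_abs_self M
  have h2 := le_abs_self s
  have h3 := neg_abs_le s
  rcases lt_abs.1 hy with h | h
  · rw [(hM y).2 (by linarith [abs_nonneg s]), (hM (y - s)).2 (by linarith), sub_self]
  · rw [(hM y).1 (by linarith [abs_nonneg s]), (hM (y - s)).1 (by linarith), sub_self]

theorem int_win (s : ℝ) : Integrable (win F s) := by
  obtain ⟨M, hM⟩ := hF.win_zero s
  refine integrable_of_bdd (hF.meas_win s) (C := 1) (fun y => ?_) hM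
  unfold win
  rw [abs_le]
  constructor <;> linarith [hF.le_one y, hF.nonneg (y - s), hF.le_one (y - s), hF.nonneg y]

theorem int_phi {s : ℝ} (hs : 0 ≤ s) : Integrable (fun y => negMulLog (win F s y)) := by
  obtain ⟨M, hM⟩ := hF.win_zero s
  exact integrable_of_bdd (continuous_negMulLog.measurable.comp (hF.meas_win s)) (C := 1)
    (fun y => phi_abs_le (hF.win_nonneg hs y) (hF.win_le_one s y))
    (fun y hy => by rw [hM y hy, negMulLog_zero])

theorem integral_win {s : ℝ} (hs : 0 ≤ s) : ∫ y, win F s y = s := by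
  obtain ⟨M, hM⟩ := hF.bd
  have hi : ∀ a b : ℝ, IntervalIntegrable F volume a b := fun a b => hF.mono.intervalIntegrable
  set L := |M| + s with hL
  have h1 := le_abs_self M
  have h0 := abs_nonneg M
  have hsupp : Function.support (win F s) ⊆ Set.Ioc (-L) L := by
    intro y hy
    by_contra h
    apply hy
    unfold win
    rcases le_or_gt y (-L) with h2 | h2
    · rw [(hM y).1 (by linarith), (hM (y - s)).1 (by linarith), sub_self]
    · have h3 : L < y := not_le.1 (fun h3 => h ⟨h2, h3⟩)
      rw [(hM y).2 (by linarith), (hM (y - s)).2 (by linarith), sub_self]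
  rw [← intervalIntegral.integral_eq_integral_of_support_subset hsupp]
  unfold win
  have hi2 : IntervalIntegrable (fun y => F (y - s)) volume (-L) L :=
    (hF.mono.comp (fun x y h => by linarith : Monotone fun y => y - s)).intervalIntegrable
  rw [intervalIntegral.integral_sub (hi _ _) hi2, intervalIntegral.integral_comp_sub_right,
    intervalIntegral.integral_interval_sub_interval_comm' (hi _ _) (hi _ _) (hi _ _)]
  have e1 : ∫ y in (L - s)..L, F y = ∫ y in (L - s)..L, (1 : ℝ) := by
    refine intervalIntegral.integral_congr (fun y hy => (hM y).2 ?_)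
    rw [Set.uIcc_of_le (by linarith)] at hy
    linarith [hy.1]
  have e2 : ∫ y in (-L - s)..(-L), F y = ∫ y in (-L - s)..(-L), (0 : ℝ) := by
    refine intervalIntegral.integral_congr (fun y hy => (hM y).1 ?_)
    rw [Set.uIcc_of_le (by linarith)] at hy
    linarith [hy.2]
  rw [e1, e2]
  simp

theorem integral_abs_win (s : ℝ) : ∫ y, |win F s y| = |s| := by
  rcases le_total 0 s with hs | hs
  · simp only [abs_of_nonneg (hF.win_nonneg hs _), hF.integral_win hs, abs_of_nonneg hs]
  · rw [← integral_add_right_eq_self _ s, abs_of_nonpos hs, ← hF.integral_win (neg_nonneg.2 hs)]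
    congr 1
    funext y
    rw [← abs_of_nonneg (hF.win_nonneg (neg_nonneg.2 hs) y), ← abs_neg]
    simp [win]

theorem Hs_nonneg {s : ℝ} (hs : 0 ≤ s) : 0 ≤ Hs F s :=
  div_nonneg (integral_nonneg
    (fun y => negMulLog_nonneg (hF.win_nonneg hs y) (hF.win_le_one s y))) hs

end IsCdf

/-! ### pointwise inequalities -/

/-- The splitting entropy. -/
noncomputable def DD (a b : ℝ) : ℝ := negMulLog a + negMulLog b - negMulLog (a + b)

theorem DD_comm (a b : ℝ) : DD a b = DD b a := by
  unfold DD
  rw [add_comm a b]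
  ring

theorem gibbs {a z : ℝ} (ha : 0 ≤ a) (hz : 0 < z) : negMulLog a ≤ -a * log z + (z - a) := by
  rcases ha.eq_or_lt with rfl | ha
  · simpa using hz.le
  · have h := Real.log_le_sub_one_of_pos (div_pos hz ha)
    rw [Real.log_div hz.ne' ha.ne'] at h
    have h2 := mul_le_mul_of_nonneg_left h ha.le
    rw [mul_sub a (z / a), mul_div_cancel₀ _ ha.ne'] at h2
    unfold negMulLog
    linarith

theorem DD_le {a b β : ℝ} (ha : 0 ≤ a) (hb : 0 ≤ b) (h0 : 0 < β) (h1 : β < 1) :
    DD a b ≤ -a * log β - b * log (1 - β) := by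
  rcases (add_nonneg ha hb).eq_or_lt with h | h
  · have ha0 : a = 0 := by linarith
    have hb0 : b = 0 := by linarith
    simp [DD, ha0, hb0]
  · have h2 := gibbs ha (mul_pos h h0)
    have h3 := gibbs hb (mul_pos h (sub_pos.2 h1))
    rw [Real.log_mul h.ne' h0.ne'] at h2
    rw [Real.log_mul h.ne' (sub_pos.2 h1).ne'] at h3
    unfold DD
    have : negMulLog (a + b) = -(a + b) * log (a + b) := rfl
    rw [this]
    linarith

theorem DD_le_log2 {a b : ℝ} (ha : 0 ≤ a) (hb : 0 ≤ b) : DD a b ≤ (a + b) * log 2 := by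
  have := DD_le ha hb (β := 1 / 2) (by norm_num) (by norm_num)
  rw [show (1 : ℝ) - 1 / 2 = 1 / 2 by norm_num, one_div, Real.log_inv] at this
  linarith

theorem DD_le_harm {a b β : ℝ} (ha : 0 ≤ a) (hb : 0 ≤ b) (h0 : 0 < β) (h1 : β < 1) :
    DD a b ≤ 2 * (a * b / (a + b)) * (-log β) + (a + b) * (-log (1 - β)) := by
  have l1 : 0 ≤ -log β := neg_nonneg.2 (Real.log_nonpos h0.le h1.le)
  have l2 : 0 ≤ -log (1 - β) := neg_nonneg.2 (Real.log_nonpos (by linarith) (by linarith))
  have key : ∀ a b : ℝ, 0 ≤ a → a ≤ b →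
      DD a b ≤ 2 * (a * b / (a + b)) * (-log β) + (a + b) * (-log (1 - β)) := by
    intro a b ha hab
    have h2 : a ≤ 2 * (a * b / (a + b)) := by
      rcases ha.eq_or_lt with rfl | ha
      · simp
      · rw [← mul_div_assoc, le_div_iff₀ (by linarith)]
        nlinarith
    have h3 := DD_le ha (ha.trans hab) h0 h1
    nlinarith [mul_le_mul_of_nonneg_right h2 l1, mul_nonneg ha l2]
  rcases le_total a b with h | h
  · exact key a b ha h
  · rw [DD_comm, mul_comm a b, add_comm a b]
    exact key b a hb h

theorem DD_ge {a b : ℝ} (ha : 0 ≤ a) (hb : 0 ≤ b) : (a + b - |a - b|) * log 2 ≤ DD a b := by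
  have key : ∀ a b : ℝ, 0 ≤ a → a ≤ b → 2 * a * log 2 ≤ DD a b := by
    intro a b ha hab
    rcases ha.eq_or_lt with rfl | ha
    · simp [DD]
    have hb : 0 < b := ha.trans_le hab
    have l0 : 0 ≤ a / b := by positivity
    have l1 : 0 ≤ 1 - a / b := by rw [sub_nonneg, div_le_one hb]; exact hab
    have m1 : a ∈ Set.Ici (0 : ℝ) := ha.le
    have m2 : a + b ∈ Set.Ici (0 : ℝ) := (add_pos ha hb).le
    have c1 := concaveOn_negMulLog.2 m1 m2 l0 l1 (by ring)
    have c2 := concaveOn_negMulLog.2 m1 m2 l1 l0 (by ring)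
    simp only [smul_eq_mul] at c1 c2
    rw [show a / b * a + (1 - a / b) * (a + b) = b by field_simp; ring] at c1
    rw [show (1 - a / b) * a + a / b * (a + b) = 2 * a by field_simp; ring] at c2
    have e : negMulLog (2 * a) = 2 * negMulLog a - 2 * a * log 2 := by
      unfold negMulLog
      rw [Real.log_mul two_ne_zero ha.ne']
      ring
    unfold DD
    linarith
  rcases le_total a b with h | h
  · rw [abs_of_nonpos (by linarith)]
    have := key a b ha h
    linarith
  · rw [abs_of_nonneg (by linarith), DD_comm]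
    have := key b a hb h
    linarith

namespace IsCdf

variable {F : ℝ → ℝ} (hF : IsCdf F)
include hF

theorem int_DD {s : ℝ} (hs : 0 < s) : Integrable (fun y => DD (win F s y) (win F s (y - s))) := by
  have e : ∀ y, win F s y + win F s (y - s) = win F (2 * s) y := by
    intro y
    unfold win
    rw [show y - s - s = y - 2 * s by ring]
    ring
  unfold DD
  simp only [e]
  exact ((hF.int_phi hs.le).add ((hF.int_phi hs.le).comp_sub_right s)).sub
    (hF.int_phi (by linarith))

theorem inc_eq {s : ℝ} (hs : 0 < s) :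
    Hs F s - Hs F (2 * s) = (∫ y, DD (win F s y) (win F s (y - s))) / (2 * s) := by
  have e : ∀ y, win F s y + win F s (y - s) = win F (2 * s) y := by
    intro y
    unfold win
    rw [show y - s - s = y - 2 * s by ring]
    ring
  unfold DD Hs
  simp only [e]
  have i1 := hF.int_phi hs.le
  have i2 : Integrable (fun y => negMulLog (win F s (y - s))) := i1.comp_sub_right s
  have i3 : Integrable (fun y => negMulLog (win F s y) + negMulLog (win F s (y - s))) := i1.add i2
  rw [integral_sub i3 (hF.int_phi (by linarith)), integral_add i1 i2,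
    integral_sub_right_eq_self (fun y => negMulLog (win F s y)) s]
  field_simp
  ring

theorem integral_two {s : ℝ} (hs : 0 < s) : ∫ y, (win F s y + win F s (y - s)) = 2 * s := by
  rw [integral_add (hF.int_win s) ((hF.int_win s).comp_sub_right s),
    integral_sub_right_eq_self (win F s) s, hF.integral_win hs.le]
  ring

theorem inc_le_log2 {s : ℝ} (hs : 0 < s) : Hs F s - Hs F (2 * s) ≤ log 2 := by
  rw [hF.inc_eq hs, div_le_iff₀ (by linarith), ← hF.integral_two hs, mul_comm,
    ← integral_mul_const]
  exact integral_mono (hF.int_DD hs)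
    (((hF.int_win s).add ((hF.int_win s).comp_sub_right s)).mul_const _)
    (fun y => DD_le_log2 (hF.win_nonneg hs.le _) (hF.win_nonneg hs.le _))

theorem inc_ge {s β : ℝ} (hs : 0 < s) (h : ∫ y, |win F s y - win F s (y - s)| ≤ 2 * s * β) :
    (1 - β) * log 2 ≤ Hs F s - Hs F (2 * s) := by
  have i1 : Integrable (fun y => win F s y + win F s (y - s)) :=
    (hF.int_win s).add ((hF.int_win s).comp_sub_right s)
  have i2 : Integrable (fun y => |win F s y - win F s (y - s)|) :=
    ((hF.int_win s).sub ((hF.int_win s).comp_sub_right s)).abs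
  have h1 := integral_mono ((i1.sub i2).mul_const (log 2)) (hF.int_DD hs)
    (fun y => DD_ge (hF.win_nonneg hs.le _) (hF.win_nonneg hs.le _))
  rw [integral_mul_const] at h1
  erw [integral_sub i1 i2] at h1
  rw [hF.integral_two hs] at h1
  rw [hF.inc_eq hs, le_div_iff₀ (by linarith)]
  nlinarith [mul_le_mul_of_nonneg_right h (Real.log_nonneg one_le_two)]

theorem inc_nonneg {s : ℝ} (hs : 0 < s) : 0 ≤ Hs F s - Hs F (2 * s) := by
  rw [hF.inc_eq hs]
  refine div_nonneg (integral_nonneg (fun y => le_trans ?_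
    (DD_ge (hF.win_nonneg hs.le _) (hF.win_nonneg hs.le _)))) (by linarith)
  refine mul_nonneg (sub_nonneg.2 (abs_le.2 ⟨?_, ?_⟩)) (Real.log_nonneg one_le_two) <;>
    linarith [hF.win_nonneg hs.le y, hF.win_nonneg hs.le (y - s)]

theorem int_harm {s : ℝ} (hs : 0 < s) : Integrable
    (fun y => win F s y * win F s (y - s) / (win F s y + win F s (y - s))) := by
  have m2 : Measurable fun y => win F s (y - s) := (hF.meas_win s).comp (measurable_id.sub_const s)
  refine (hF.int_win s).mono' (((hF.meas_win s).mul m2).div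
    ((hF.meas_win s).add m2)).aestronglyMeasurable (Filter.Eventually.of_forall (fun y => ?_))
  have h1 := hF.win_nonneg hs.le y
  have h2 := hF.win_nonneg hs.le (y - s)
  rw [Real.norm_eq_abs, abs_of_nonneg (by positivity), mul_div_assoc]
  exact mul_le_of_le_one_right h1 (div_le_one_of_le₀ (by linarith) (by linarith))

theorem inc_le {s β o : ℝ} (hs : 0 < s) (h0 : 0 < β) (h1 : β < 1)
    (h : ∫ y, win F s y * win F s (y - s) / (win F s y + win F s (y - s)) ≤ o * s) :
    Hs F s - Hs F (2 * s) ≤ o * (-log β) + -log (1 - β) := by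
  have i1 : Integrable (fun y => win F s y + win F s (y - s)) :=
    (hF.int_win s).add ((hF.int_win s).comp_sub_right s)
  have i2 := ((hF.int_harm hs).const_mul 2).mul_const (-log β)
  have h2 := integral_mono (hF.int_DD hs) (i2.add (i1.mul_const (-log (1 - β))))
    (fun y => DD_le_harm (hF.win_nonneg hs.le _) (hF.win_nonneg hs.le _) h0 h1)
  erw [integral_add i2 (i1.mul_const (-log (1 - β)))] at h2
  rw [integral_mul_const, integral_mul_const, integral_const_mul, hF.integral_two hs] at h2
  have l1 : 0 ≤ -log β := neg_nonneg.2 (Real.log_nonpos h0.le h1.le)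
  rw [hF.inc_eq hs, div_le_iff₀ (by linarith)]
  nlinarith [mul_le_mul_of_nonneg_right h l1]

/-- A law carried by a finite set `V` has entropy at most `log #V`. -/
theorem Hs_le_log {s : ℝ} (hs : 0 < s) (V : Finset ℝ) {N : ℝ} (hN : 0 < N) (hV : (V.card : ℝ) ≤ N)
    (hflat : ∀ x y, x ≤ y → F x ≠ F y → ∃ v ∈ V, x < v ∧ v ≤ y) : Hs F s ≤ log N := by
  have hind : ∀ v : ℝ, Integrable (Set.indicator (Set.Ico v (v + s)) (fun _ => (1 : ℝ))) :=
    fun v => (integrable_indicator_iff measurableSet_Ico).2 (integrableOn_const (by simp))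
  have i1 : Integrable (fun y => win F s y * (log N - 1)) := (hF.int_win s).mul_const _
  have i2 : Integrable (fun y => N⁻¹ *
      ∑ v ∈ V, Set.indicator (Set.Ico v (v + s)) (fun _ => (1 : ℝ)) y) :=
    (integrable_finsetSum V (fun v _ => hind v)).const_mul _
  have h1 := integral_mono (hF.int_phi hs.le) (i1.add i2) (fun y => by
    change negMulLog (win F s y) ≤ win F s y * (log N - 1) + N⁻¹ * _
    have hs0 : ∀ v ∈ V, 0 ≤ Set.indicator (Set.Ico v (v + s)) (fun _ => (1 : ℝ)) y :=
      fun v _ => Set.indicator_nonneg (fun _ _ => zero_le_one) _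
    by_cases h : F (y - s) = F y
    · have : win F s y = 0 := by unfold win; rw [h, sub_self]
      rw [this, negMulLog_zero, zero_mul, zero_add]
      exact mul_nonneg (inv_pos.2 hN).le (Finset.sum_nonneg hs0)
    · obtain ⟨v, hv, h2, h3⟩ := hflat _ _ (by linarith) h
      have h4 := Finset.single_le_sum hs0 hv
      rw [Set.indicator_of_mem (show y ∈ Set.Ico v (v + s) from ⟨h3, by linarith⟩)] at h4
      have h5 := gibbs (hF.win_nonneg hs.le y) (inv_pos.2 hN)
      rw [Real.log_inv] at h5
      nlinarith [mul_le_mul_of_nonneg_left h4 (inv_pos.2 hN).le])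
  erw [integral_add i1 i2] at h1
  rw [integral_mul_const, integral_const_mul, hF.integral_win hs.le,
    integral_finsetSum V (fun v _ => hind v)] at h1
  simp only [integral_indicator measurableSet_Ico, setIntegral_const, Real.volume_real_Ico,
    add_sub_cancel_left, max_eq_left hs.le, smul_eq_mul, mul_one, Finset.sum_const,
    nsmul_eq_mul] at h1
  have h6 : N⁻¹ * (V.card * s) ≤ s := by
    rw [inv_mul_le_iff₀ hN]
    exact mul_le_mul_of_nonneg_right hV hs.le
  unfold Hs
  rw [div_le_iff₀ hs]
  linarith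

end IsCdf

/-- Concavity. -/
theorem Hs_mix {A : Type*} [Fintype A] {q : A → ℝ} (hq : PV q) {F : A → ℝ → ℝ}
    (hF : ∀ a, IsCdf (F a)) {s : ℝ} (hs : 0 < s) :
    ∑ a, q a * Hs (F a) s ≤ Hs (fun y => ∑ a, q a * F a y) s := by
  have hG : IsCdf (fun y => ∑ a, q a * F a y) := by simpa using isCdf_mix hq (fun _ => 0) hF
  unfold Hs
  simp only [← mul_div_assoc, ← Finset.sum_div, ← integral_const_mul]
  rw [← integral_finsetSum _ (fun a _ => ((hF a).int_phi hs.le).const_mul _)]
  refine div_le_div_of_nonneg_right (integral_mono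
    (integrable_finsetSum _ (fun a _ => ((hF a).int_phi hs.le).const_mul _))
    (hG.int_phi hs.le) (fun y => ?_)) hs.le
  have h := concaveOn_negMulLog.le_map_sum (t := Finset.univ) (w := q)
    (p := fun a => win (F a) s y) (fun a _ => hq.nonneg a) hq.sum
    (fun a _ => (hF a).win_nonneg hs.le y)
  simp only [smul_eq_mul] at h
  refine h.trans (le_of_eq ?_)
  congr 1
  simp only [win, mul_sub, Finset.sum_sub_distrib]

theorem win_conv {A : Type*} [Fintype A] (q Y : A → ℝ) (F : ℝ → ℝ) (s y : ℝ) :
    win (conv q Y F) s y = ∑ a, q a * win F s (y - Y a) := by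
  simp only [win, conv, mul_sub, Finset.sum_sub_distrib, sub_right_comm y s]

theorem win_heav {s : ℝ} (hs : 0 ≤ s) (y : ℝ) :
    win heav s y = Set.indicator (Set.Ico 0 s) (fun _ => (1 : ℝ)) y := by
  unfold win heav
  by_cases h : y ∈ Set.Ico 0 s
  · rw [Set.indicator_of_mem h, if_pos h.1, if_neg (by linarith [h.2]), sub_zero]
  · rw [Set.indicator_of_notMem h]
    by_cases h1 : 0 ≤ y
    · have : s ≤ y := not_lt.1 (fun h2 => h ⟨h1, h2⟩)
      rw [if_pos h1, if_pos (by linarith), sub_self]
    · rw [if_neg h1, if_neg (by linarith [not_le.1 h1]), sub_self]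

theorem integral_win_shift {F : ℝ → ℝ} (hF : IsCdf F) {s : ℝ} (hs : 0 ≤ s) (b : ℝ) :
    ∫ y, win F s (y - b) = s := by
  rw [integral_sub_right_eq_self (win F s) b, hF.integral_win hs]

/-- At scales below the gaps the averaged entropy is the Shannon entropy. -/
theorem Hs_exact {A : Type*} [Fintype A] (q Y : A → ℝ) {s : ℝ} (hs : 0 < s)
    (hgap : ∀ a b, Y a ≠ Y b → s ≤ |Y a - Y b|) :
    Hs (conv q Y heav) s = -∑ a, q a * log (∑ b, if Y b = Y a then q b else 0) := by
  have h1 : ∀ y, negMulLog (win (conv q Y heav) s y) =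
      ∑ a, (-(q a * log (∑ b, if Y b = Y a then q b else 0))) * win heav s (y - Y a) := by
    intro y
    unfold negMulLog
    rw [neg_mul]
    nth_rewrite 1 [win_conv]
    rw [Finset.sum_mul, ← Finset.sum_neg_distrib]
    refine Finset.sum_congr rfl (fun a _ => ?_)
    by_cases h : y - Y a ∈ Set.Ico 0 s
    · have : win (conv q Y heav) s y = ∑ b, if Y b = Y a then q b else 0 := by
        rw [win_conv]
        refine Finset.sum_congr rfl (fun b _ => ?_)
        rw [win_heav hs.le]
        split_ifs with hb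
        · rw [hb, Set.indicator_of_mem h, mul_one]
        · rw [Set.indicator_of_notMem, mul_zero]
          intro h2
          have h3 := hgap b a hb
          have h4 : |Y b - Y a| < s := abs_lt.2 ⟨by linarith [h.1, h2.2], by linarith [h.2, h2.1]⟩
          linarith
      rw [this]
      ring
    · rw [win_heav hs.le, Set.indicator_of_notMem h]
      simp
  unfold Hs
  simp only [h1]
  rw [integral_finsetSum _ (fun a _ => ((isCdf_heav.int_win s).comp_sub_right _).const_mul _)]
  simp only [integral_const_mul, integral_win_shift isCdf_heav hs.le, ← Finset.sum_mul]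
  rw [mul_div_cancel_right₀ _ hs.ne', Finset.sum_neg_distrib]

section measure

variable {μ : Measure ℝ} [IsProbabilityMeasure μ]

theorem isCdf_cdf {M : ℝ} (hM : μ {x | M < |x|} = 0) (u : ℝ) : IsCdf (cdf μ u) := by
  refine ⟨fun x y h => measureReal_mono (fun z hz => le_trans hz h), |u| * |M| + 1,
    fun y => ⟨fun h => ?_, fun h => ?_⟩⟩
  · rw [cdf, measureReal_eq_zero_iff]
    refine measure_mono_null (fun x hx => ?_) hM
    by_contra h2
    have h3 : |x| ≤ |M| := (not_lt.1 h2).trans (le_abs_self M)
    have h4 : |u * x| ≤ |u| * |M| := by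
      rw [abs_mul]
      exact mul_le_mul_of_nonneg_left h3 (abs_nonneg u)
    have h5 : u * x ≤ y := hx
    linarith [neg_abs_le (u * x)]
  · have hm : MeasurableSet {x | u * x ≤ y} := measurableSet_le (by fun_prop) measurable_const
    rw [cdf, Measure.real, (prob_compl_eq_zero_iff hm).1, ENNReal.toReal_one]
    refine measure_mono_null (fun x hx => ?_) hM
    by_contra h2
    have h3 : |x| ≤ |M| := (not_lt.1 h2).trans (le_abs_self M)
    have h4 : |u * x| ≤ |u| * |M| := by
      rw [abs_mul]
      exact mul_le_mul_of_nonneg_left h3 (abs_nonneg u)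
    exact hx (show u * x ≤ y by linarith [le_abs_self (u * x)])

omit [IsProbabilityMeasure μ] in
theorem cdf_eq_integral (u y : ℝ) : cdf μ u y = ∫ x, heav (y - u * x) ∂μ := by
  have hm : MeasurableSet {x | u * x ≤ y} := measurableSet_le (by fun_prop) measurable_const
  rw [cdf, ← integral_indicator_one hm]
  congr 1
  funext x
  simp only [heav, sub_nonneg, Set.indicator_apply, Set.mem_ofPred_eq, Pi.one_apply]

theorem cdf_expand {A : Type*} [Fintype A] {q a b : A → ℝ} (h : SS μ q a b) (hq : ∀ w, 0 ≤ q w)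
    (u y : ℝ) : cdf μ u y = ∑ w, q w * cdf μ (u * a w) (y - u * b w) := by
  rw [cdf, h.real_apply hq (measurableSet_le (by fun_prop) measurable_const)]
  refine Finset.sum_congr rfl (fun w _ => ?_)
  unfold cdf
  congr 2
  ext x
  simp only [Set.mem_ofPred_eq]
  constructor <;> intro h <;> linarith

/-- Adding an independent tail does not decrease the averaged entropy. -/
theorem Hs_conv_le {M : ℝ} (hM : μ {x | M < |x|} = 0) {A : Type*} [Fintype A] {q : A → ℝ}
    (hq : PV q) (Y : A → ℝ) (u : ℝ) {s : ℝ} (hs : 0 < s) :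
    Hs (conv q Y heav) s ≤ Hs (conv q Y (cdf μ u)) s := by
  have hF := isCdf_heav.conv hq Y
  have hG := (isCdf_cdf hM u).conv hq Y
  set g := win (conv q Y heav) s with hg
  have hgm : Measurable g := hF.meas_win s
  have hbd : ∀ (f : ℝ → ℝ), Measurable f → (∀ z, |f z| ≤ 1) → ∀ y,
      Integrable (fun x => f (y - u * x)) μ := fun f hf hb y =>
    Integrable.of_bound (hf.comp (by fun_prop)).aestronglyMeasurable 1
      (Filter.Eventually.of_forall (fun x => hb _))
  have hh : ∀ y, Integrable (fun x => heav (y - u * x)) μ :=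
    hbd heav isCdf_heav.meas (fun z => abs_le.2
      ⟨by linarith [isCdf_heav.nonneg z], isCdf_heav.le_one z⟩)
  have h1 : ∀ y, win (conv q Y (cdf μ u)) s y = ∫ x, g (y - u * x) ∂μ := by
    intro y
    simp only [hg, win_conv]
    rw [integral_finsetSum]
    · refine Finset.sum_congr rfl (fun a _ => ?_)
      rw [integral_const_mul]
      congr 1
      unfold win
      rw [cdf_eq_integral, cdf_eq_integral, ← integral_sub (hh _) (hh _)]
      congr 1
      funext x
      congr 2 <;> ring
    · intro a _
      refine Integrable.const_mul ?_ _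
      have := (hh (y - Y a)).sub (hh (y - Y a - s))
      refine this.congr (Filter.Eventually.of_forall (fun x => ?_))
      simp only [win, Pi.sub_apply]
      congr 2 <;> ring
  have hφm : Measurable fun z => negMulLog (g z) := continuous_negMulLog.measurable.comp hgm
  have hφb : ∀ z, |negMulLog (g z)| ≤ 1 := fun z =>
    phi_abs_le (hF.win_nonneg hs.le z) (hF.win_le_one s z)
  have h2 : ∀ y, ∫ x, negMulLog (g (y - u * x)) ∂μ ≤ negMulLog (win (conv q Y (cdf μ u)) s y) := by
    intro y
    rw [h1]
    exact concaveOn_negMulLog.le_map_integral continuous_negMulLog.continuousOn isClosed_Ici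
      (Filter.Eventually.of_forall (fun x => hF.win_nonneg hs.le _))
      (hbd g hgm (fun z => abs_le.2 ⟨by linarith [hF.win_nonneg hs.le z], hF.win_le_one s z⟩) y)
      (hbd _ hφm hφb y)
  have hint : Integrable (fun z : ℝ × ℝ => negMulLog (g (z.2 - u * z.1))) (μ.prod volume) := by
    have hm : Measurable (fun z : ℝ × ℝ => negMulLog (g (z.2 - u * z.1))) :=
      hφm.comp (by fun_prop : Measurable fun z : ℝ × ℝ => z.2 - u * z.1)
    rw [integrable_prod_iff hm.aestronglyMeasurable]
    have hi : Integrable (fun y => negMulLog (g y)) := hF.int_phi hs.le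
    refine ⟨Filter.Eventually.of_forall (fun x => hi.comp_sub_right (u * x)), ?_⟩
    simp only [integral_sub_right_eq_self (fun y => ‖negMulLog (g y)‖)]
    exact integrable_const _
  have h3 := integral_integral_swap (f := fun x y => negMulLog (g (y - u * x))) hint
  simp only [integral_sub_right_eq_self (fun y => negMulLog (g y)), integral_const,
    probReal_univ, one_smul] at h3
  refine div_le_div_of_nonneg_right ?_ hs.le
  rw [h3]
  exact integral_mono hint.integral_prod_right (hG.int_phi hs.le) h2

end measure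

end Crest.Agent.R98
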