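import Crest.Agent.R98.CLT

/-! Row 98: good scales and the counting lemma. -/

set_option autoImplicit false

namespace Crest.Agent.R98

open MeasureTheory Finset Real

variable {A : Type*} [Fintype A]

/-- The law of `Y` contains, with weight at least `ε`, symmetric two-point laws whose gap lies in
`[ε s, 2 s]`. -/
def Good (q Y : A → ℝ) (s ε : ℝ) : Prop :=
  ∃ ω : A → A → ℝ, (∀ a b, 0 ≤ ω a b) ∧ (∀ a, ∑ b, ω a b ≤ q a) ∧ (∀ b, ∑ a, ω a b ≤ q b) ∧
    (∀ a b, ω a b ≠ 0 → ε * s ≤ Y a - Y b ∧ Y a - Y b ≤ 2 * s) ∧ ε ≤ ∑ a, ∑ b, ω a b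

theorem win_heav_ne {s y : ℝ} (hs : 0 ≤ s) (h : win heav s y ≠ 0) : 0 ≤ y ∧ y < s := by
  rw [win_heav hs] at h
  exact (Set.mem_of_indicator_ne_zero h : y ∈ Set.Ico 0 s)

theorem good_of_harm {q : A → ℝ} (hq : PV q) (Y : A → ℝ) {s ε : ℝ} (hs : 0 < s) (hε : 0 ≤ ε)
    (h : 2 * ε * s ≤ ∫ y, win (conv q Y heav) s y * win (conv q Y heav) s (y - s) /
      (win (conv q Y heav) s y + win (conv q Y heav) s (y - s))) : Good q Y s ε := by
  classical
  have hF := isCdf_heav.conv hq Y
  set W := win (conv q Y heav) s with hW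
  set I := win heav s with hI
  have hI0 : ∀ y, 0 ≤ I y := isCdf_heav.win_nonneg hs.le
  have hIm : Measurable I := isCdf_heav.meas_win s
  have hWm : Measurable W := hF.meas_win s
  have hW0 : ∀ y, 0 ≤ W y := hF.win_nonneg hs.le
  have hWe : ∀ y, W y = ∑ a, q a * I (y - Y a) := win_conv q Y heav s
  let f : A → A → ℝ → ℝ := fun a b y =>
    q a * I (y - Y a) * (q b * I (y - s - Y b)) / (W y + W (y - s))
  have hf0 : ∀ a b y, 0 ≤ f a b y := fun a b y =>
    div_nonneg (mul_nonneg (mul_nonneg (hq.nonneg a) (hI0 _)) (mul_nonneg (hq.nonneg b) (hI0 _)))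
      (add_nonneg (hW0 _) (hW0 _))
  have hrow : ∀ a y, ∑ b, f a b y ≤ q a * I (y - Y a) := by
    intro a y
    simp only [f, ← Finset.sum_div, ← Finset.mul_sum, ← hWe]
    rw [mul_div_assoc]
    exact mul_le_of_le_one_right (mul_nonneg (hq.nonneg a) (hI0 _))
      (div_le_one_of_le₀ (by linarith [hW0 y]) (add_nonneg (hW0 _) (hW0 _)))
  have hcol : ∀ b y, ∑ a, f a b y ≤ q b * I (y - s - Y b) := by
    intro b y
    simp only [f, ← Finset.sum_div, ← Finset.sum_mul, ← hWe]
    rw [mul_comm, mul_div_assoc]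
    exact mul_le_of_le_one_right (mul_nonneg (hq.nonneg b) (hI0 _))
      (div_le_one_of_le₀ (by linarith [hW0 (y - s)]) (add_nonneg (hW0 _) (hW0 _)))
  have hIi : ∀ (c b : ℝ), Integrable (fun y => c * I (y - b)) := fun c b =>
    ((isCdf_heav.int_win s).comp_sub_right b).const_mul c
  have hfi : ∀ a b, Integrable (f a b) := by
    intro a b
    refine (hIi (q a) (Y a)).mono' (Measurable.aestronglyMeasurable (by fun_prop))
      (Filter.Eventually.of_forall (fun y => ?_))
    rw [Real.norm_eq_abs, abs_of_nonneg (hf0 a b y)]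
    exact (Finset.single_le_sum (fun b _ => hf0 a b y) (Finset.mem_univ b)).trans (hrow a y)
  have hI1 : ∀ (c b : ℝ), ∫ y, c * I (y - b) = c * s := fun c b => by
    rw [integral_const_mul, integral_win_shift isCdf_heav hs.le]
  have hw0 : ∀ a b, 0 ≤ (∫ y, f a b y) / s := fun a b =>
    div_nonneg (integral_nonneg (hf0 a b)) hs.le
  have hle : ∀ a b, (if ε * s ≤ Y a - Y b then (∫ y, f a b y) / s else 0) ≤ (∫ y, f a b y) / s :=
    fun a b => by split_ifs; exacts [le_rfl, hw0 a b]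
  refine ⟨fun a b => if ε * s ≤ Y a - Y b then (∫ y, f a b y) / s else 0,
    fun a b => by dsimp only; split_ifs; exacts [hw0 a b, le_rfl], fun a => ?_, fun b => ?_,
    fun a b hab => ?_, ?_⟩
  · refine (Finset.sum_le_sum (fun b _ => hle a b)).trans ?_
    rw [← Finset.sum_div, ← integral_finsetSum _ (fun b _ => hfi a b), div_le_iff₀ hs,
      ← hI1 (q a) (Y a)]
    exact integral_mono (integrable_finsetSum _ (fun b _ => hfi a b)) (hIi _ _) (hrow a)
  · refine (Finset.sum_le_sum (fun a _ => hle a b)).trans ?_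
    rw [← Finset.sum_div, ← integral_finsetSum _ (fun a _ => hfi a b), div_le_iff₀ hs,
      ← hI1 (q b) (s + Y b)]
    exact integral_mono (integrable_finsetSum _ (fun a _ => hfi a b)) (hIi _ _)
      (fun y => by simpa only [sub_sub] using hcol b y)
  · dsimp only at hab
    split_ifs at hab with h1
    · refine ⟨h1, ?_⟩
      by_contra h2
      apply hab
      have : f a b = fun _ => 0 := by
        funext y
        by_contra h3
        have h4 := mul_ne_zero_iff.1 (div_ne_zero_iff.1 h3).1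
        have h5 := win_heav_ne hs.le (right_ne_zero_of_mul h4.1)
        have h6 := win_heav_ne hs.le (right_ne_zero_of_mul h4.2)
        exact h2 (by linarith [h5.1, h6.2])
      simp [this]
    · exact absurd rfl hab
  · have htot : ∑ a, ∑ b, ∫ y, f a b y =
        ∫ y, W y * W (y - s) / (W y + W (y - s)) := by
      simp only [← integral_finsetSum _ (fun b _ => hfi _ b)]
      rw [← integral_finsetSum _ (fun a _ => integrable_finsetSum _ (fun b _ => hfi a b))]
      congr 1
      funext y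
      simp only [f, ← Finset.sum_div, ← Finset.mul_sum, ← Finset.sum_mul, ← hWe]
    have hbad : ∀ a, ∑ b, (if ε * s ≤ Y a - Y b then 0 else ∫ y, f a b y) ≤ q a * (ε * s) := by
      intro a
      have hεs : 0 ≤ ε * s := mul_nonneg hε hs.le
      have hi2 : ∀ b, Integrable (fun y => if ε * s ≤ Y a - Y b then 0 else f a b y) := by
        intro b
        split_ifs
        exacts [integrable_zero _ _ _, hfi a b]
      have e : ∀ b, (if ε * s ≤ Y a - Y b then 0 else ∫ y, f a b y) =
          ∫ y, if ε * s ≤ Y a - Y b then 0 else f a b y := by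
        intro b
        split_ifs <;> simp
      simp only [e]
      have e2 : q a * (ε * s) = ∫ y, q a * win heav (ε * s) (y - (Y a + (s - ε * s))) := by
        rw [integral_const_mul, integral_win_shift isCdf_heav hεs]
      rw [← integral_finsetSum _ (fun b _ => hi2 b), e2]
      refine integral_mono (integrable_finsetSum _ (fun b _ => hi2 b))
        (((isCdf_heav.int_win _).comp_sub_right _).const_mul _) (fun y => ?_)
      dsimp only
      by_cases hy : y - (Y a + (s - ε * s)) ∈ Set.Ico 0 (ε * s)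
      · rw [win_heav hεs, Set.indicator_of_mem hy]
        refine (Finset.sum_le_sum (fun b _ => ?_)).trans ((hrow a y).trans
          (mul_le_mul_of_nonneg_left (isCdf_heav.win_le_one _ _) (hq.nonneg a)))
        split_ifs
        exacts [hf0 a b y, le_rfl]
      · refine le_of_eq_of_le (Finset.sum_eq_zero (fun b _ => ?_))
          (mul_nonneg (hq.nonneg a) (isCdf_heav.win_nonneg hεs _))
        split_ifs with h1
        · rfl
        · by_contra h3
          have h4 := mul_ne_zero_iff.1 (div_ne_zero_iff.1 h3).1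
          have h5 := win_heav_ne hs.le (right_ne_zero_of_mul h4.1)
          have h6 := win_heav_ne hs.le (right_ne_zero_of_mul h4.2)
          exact hy ⟨by linarith [h6.1, not_le.1 h1], by linarith [h5.2]⟩
    have h7 := Finset.sum_le_sum (fun a (_ : a ∈ Finset.univ) => hbad a)
    rw [← Finset.sum_mul, hq.sum, one_mul] at h7
    have h8 : ∑ a, ∑ b, ∫ y, f a b y =
        (∑ a, ∑ b, if ε * s ≤ Y a - Y b then (∫ y, f a b y) / s else 0) * s +
          ∑ a, ∑ b, if ε * s ≤ Y a - Y b then 0 else ∫ y, f a b y := by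
      simp only [Finset.sum_mul, ← Finset.sum_add_distrib]
      refine Finset.sum_congr rfl (fun a _ => Finset.sum_congr rfl (fun b _ => ?_))
      split_ifs
      · rw [div_mul_cancel₀ _ hs.ne', add_zero]
      · simp
    refine le_of_mul_le_mul_right ?_ hs
    linarith

theorem inc_le_of_not_good {q : A → ℝ} (hq : PV q) (Y : A → ℝ) {s : ℝ} (hs : 0 < s) {j : ℕ}
    (hj : 1 ≤ j) (h : ¬ Good q Y s (1 / 4 ^ j)) :
    Hs (conv q Y heav) s - Hs (conv q Y heav) (2 * s) ≤ 6 / 2 ^ j := by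
  have h2 : (2 : ℝ) ≤ 2 ^ j := by simpa using pow_le_pow_right₀ (one_le_two (α := ℝ)) hj
  have h4 : (4 : ℝ) ^ j = 2 ^ j * 2 ^ j := by rw [← mul_pow]; norm_num
  set x : ℝ := 2 ^ j with hx
  have hx0 : 0 < x := by linarith
  have hb : (1 : ℝ) / (x * x) ≤ 1 / 4 := one_div_le_one_div_of_le (by norm_num) (by nlinarith)
  have h3 := (isCdf_heav.conv hq Y).inc_le (β := 1 / 4 ^ j) (o := 2 * (1 / 4 ^ j)) hs
    (by positivity) (by rw [h4]; linarith)
    (le_of_not_ge (fun h5 => h (good_of_harm hq Y hs (by positivity) h5)))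
  rw [h4] at h3
  refine h3.trans ?_
  have l1 : -log (1 / (x * x)) ≤ 2 * x := by
    rw [one_div, Real.log_inv, neg_neg, Real.log_mul hx0.ne' hx0.ne']
    linarith [Real.log_le_sub_one_of_pos hx0]
  have l2 : -log (1 - 1 / (x * x)) ≤ 2 * (1 / (x * x)) := by
    have h6 : 0 < 1 - 1 / (x * x) := by linarith
    have h7 := Real.log_le_sub_one_of_pos (inv_pos.2 h6)
    rw [Real.log_inv] at h7
    refine h7.trans ?_
    rw [sub_le_iff_le_add, inv_le_iff_one_le_mul₀ h6]
    have h8 : 0 ≤ 1 / (x * x) := by positivity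
    nlinarith
  have l3 : 2 * (1 / (x * x)) * (2 * x) = 4 / x := by field_simp; ring
  have l4 : 2 * (1 / (x * x)) ≤ 2 / x := by
    rw [mul_one_div]
    exact div_le_div_of_nonneg_left (by norm_num) hx0 (by nlinarith)
  have l5 := mul_le_mul_of_nonneg_left l1 (show 0 ≤ 2 * (1 / (x * x)) by positivity)
  have l6 : 6 / x = 4 / x + 2 / x := by ring
  linarith

theorem Bd.conv {r δ R x β : ℝ} {F : ℝ → ℝ} (h : Bd r δ R F x β) (hF : IsCdf F) {q : A → ℝ}
    (hq : PV q) (Y : A → ℝ) : Bd r δ R (conv q Y F) x β := by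
  have := bd_mix (F := Crest.Agent.R98.conv q Y F) hq.nonneg Y (G := fun _ => F) (fun _ => hF)
    (x := fun _ => x) (β := fun _ => β) (fun _ _ => h) (fun _ => rfl)
  rwa [← Finset.sum_mul, ← Finset.sum_mul, hq.sum, one_mul, one_mul] at this

theorem Bd.good {r δ R x β : ℝ} {F : ℝ → ℝ} (h : Bd r δ R F x β) (hF : IsCdf F) (hR : 0 ≤ R)
    (hx : 0 ≤ x) {q Y : A → ℝ} (hq : PV q) {s ε u : ℝ} (hg : Good q Y s ε) (hεs : 0 ≤ ε * s)
    (h1 : δ ≤ |u| * (ε * s)) (h2 : |u| * s ≤ r) :
    Bd r δ R (Crest.Agent.R98.conv q (fun a => u * Y a) F) (x * (1 - ε / 2)) β := by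
  obtain ⟨ω, hw0, hrow, hcol, hgap, hm⟩ := hg
  have hsum : ∑ a, (q a - (∑ b, ω a b) / 2 - (∑ b, ω b a) / 2) = 1 - ∑ a, ∑ b, ω a b := by
    rw [Finset.sum_sub_distrib, Finset.sum_sub_distrib, hq.sum, ← Finset.sum_div, ← Finset.sum_div,
      Finset.sum_comm (f := fun a b => ω b a)]
    ring
  have h3 := bd_mix (r := r) (δ := δ) (R := R) (A := (A × A) ⊕ A)
    (F := Crest.Agent.R98.conv q (fun a => u * Y a) F)
    (q := Sum.elim (fun z => ω z.1 z.2) (fun a => q a - (∑ b, ω a b) / 2 - (∑ b, ω b a) / 2))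
    (by
      rintro (z | a)
      · exact hw0 _ _
      · simp only [Sum.elim_inr]
        linarith [hrow a, hcol a])
    (Sum.elim (fun z => min (u * Y z.1) (u * Y z.2)) (fun a => u * Y a))
    (G := Sum.elim (fun z => Crest.Agent.R98.A2 |u * Y z.1 - u * Y z.2| F) (fun _ => F))
    (by
      rintro (z | a)
      · exact hF.A2 _
      · exact hF)
    (x := Sum.elim (fun _ => x / 2) (fun _ => x)) (β := fun _ => β)
    (by
      rintro (z | a) hz
      · have h4 := hgap _ _ hz
        refine h.A2 ?_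
        rw [← mul_sub, abs_mul, abs_of_nonneg (hεs.trans h4.1)]
        exact ⟨h1.trans (mul_le_mul_of_nonneg_left h4.1 (abs_nonneg u)),
          (mul_le_mul_of_nonneg_left h4.2 (abs_nonneg u)).trans (by linarith)⟩
      · exact h)
    (by
      intro y
      have e : ∀ x1 x2 : ℝ, Crest.Agent.R98.A2 |x1 - x2| F (y - min x1 x2) =
          (F (y - x1) + F (y - x2)) / 2 := by
        intro x1 x2
        unfold Crest.Agent.R98.A2
        rcases le_total x1 x2 with h5 | h5
        · rw [min_eq_left h5, abs_of_nonpos (by linarith), show y - x1 - -(x1 - x2) = y - x2 by ring]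
        · rw [min_eq_right h5, abs_of_nonneg (by linarith), show y - x2 - (x1 - x2) = y - x1 by ring,
            add_comm]
      simp only [Fintype.sum_sum_type, Sum.elim_inl, Sum.elim_inr, e, Fintype.sum_prod_type,
        Crest.Agent.R98.conv, sub_mul, Finset.sum_sub_distrib, mul_div_assoc', mul_add,
        add_div, Finset.sum_add_distrib, div_mul_eq_mul_div, Finset.sum_mul, Finset.sum_div]
      rw [Finset.sum_comm (f := fun a b => ω b a * F (y - u * Y a) / 2)]
      ring)
  simp only [Fintype.sum_sum_type, Sum.elim_inl, Sum.elim_inr, ← Finset.sum_mul, hsum,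
    Fintype.sum_prod_type] at h3
  refine h3.mono hR ?_ (le_of_eq (by ring))
  nlinarith [mul_le_mul_of_nonneg_left hm hx]

open Classical in
/-- Indicator of a good scale. -/
noncomputable def gi (q Y : A → ℝ) (s ε : ℝ) : ℝ := if Good q Y s ε then 1 else 0

theorem gi_nonneg (q Y : A → ℝ) (s ε : ℝ) : 0 ≤ gi q Y s ε := by
  unfold gi
  split_ifs <;> norm_num

/-- `Y` is a subset sum of the numbers `c x`. -/
def Gen {X : Type*} [Fintype X] (q Y : A → ℝ) (c : X → ℝ) : Prop :=
  ∀ a, q a ≠ 0 → ∃ e : X → ℕ, (∀ x, e x ≤ 1) ∧ Y a = ∑ x, e x * c x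

theorem iter_cdf {q : A → ℝ} (hq : PV q) (Y : A → ℝ) (k : ℕ) : IsCdf ((conv q Y)^[k] heav) := by
  induction k with
  | zero => exact isCdf_heav
  | succ k ih =>
    rw [Function.iterate_succ_apply']
    exact ih.conv hq Y

theorem iter_flat {X : Type*} [Fintype X] {q Y : A → ℝ} {c : X → ℝ} (hg : Gen q Y c) (k : ℕ)
    (x y : ℝ) (hxy : x ≤ y) (h : (conv q Y)^[k] heav x ≠ (conv q Y)^[k] heav y) :
    ∃ e : X → ℕ, (∀ z, e z ≤ k) ∧ x < ∑ z, e z * c z ∧ ∑ z, e z * c z ≤ y := by
  induction k generalizing x y with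
  | zero =>
    refine ⟨fun _ => 0, fun _ => le_rfl, ?_⟩
    simp only [Function.iterate_zero, id, heav] at h
    simp only [Nat.cast_zero, zero_mul, Finset.sum_const_zero]
    by_cases h1 : 0 ≤ x
    · exact absurd (by rw [if_pos h1, if_pos (h1.trans hxy)]) h
    · by_cases h2 : 0 ≤ y
      · exact ⟨not_le.1 h1, h2⟩
      · exact absurd (by rw [if_neg h1, if_neg h2]) h
  | succ k ih =>
    rw [Function.iterate_succ_apply'] at h
    obtain ⟨a, ha⟩ : ∃ a, q a * (conv q Y)^[k] heav (x - Y a) ≠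
        q a * (conv q Y)^[k] heav (y - Y a) := by
      by_contra h0
      exact h (Finset.sum_congr rfl (fun a _ => not_not.1 (fun h1 => h0 ⟨a, h1⟩)))
    have h1 : q a ≠ 0 := fun h0 => ha (by rw [h0, zero_mul, zero_mul])
    obtain ⟨e, he, h2, h3⟩ := ih (x - Y a) (y - Y a) (by linarith) (fun h0 => ha (by rw [h0]))
    obtain ⟨e', he', h4⟩ := hg a h1
    refine ⟨fun z => e z + e' z, fun z => add_le_add (he z) (he' z), ?_⟩
    simp only [Nat.cast_add, add_mul, Finset.sum_add_distrib, ← h4]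
    constructor <;> linarith

theorem Hs_iter_le {X : Type*} [Fintype X] {q Y : A → ℝ} (hq : PV q) {c : X → ℝ} (hg : Gen q Y c)
    (k : ℕ) {s : ℝ} (hs : 0 < s) :
    Hs ((conv q Y)^[k] heav) s ≤ Fintype.card X * log (k + 1) := by
  classical
  rw [← Real.log_pow]
  refine (iter_cdf hq Y k).Hs_le_log hs ((Fintype.piFinset fun _ : X => Finset.range (k + 1)).image
    (fun e => ∑ z, e z * c z)) (by positivity) ?_ (fun x y hxy h => ?_)
  · have := Finset.card_image_le (s := Fintype.piFinset fun _ : X => Finset.range (k + 1))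
      (f := fun e : X → ℕ => ∑ z, e z * c z)
    rw [Fintype.card_piFinset, Finset.prod_const, Finset.card_range, Finset.card_univ] at this
    exact_mod_cast this
  · obtain ⟨e, he, h2⟩ := iter_flat hg k x y hxy h
    exact ⟨_, Finset.mem_image.2 ⟨e, Fintype.mem_piFinset.2
      (fun z => Finset.mem_range.2 (Nat.lt_succ_of_le (he z))), rfl⟩, h2⟩

theorem inc_iter_of_good {q Y : A → ℝ} (hq : PV q) {s : ℝ} (hs : 0 < s) {j : ℕ}
    (hg : Good q Y s (1 / 4 ^ j)) : 1 / 2 * log 2 ≤
      Hs ((conv q Y)^[2 ^ (36 + 10 * j)] heav) (32 * s) -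
        Hs ((conv q Y)^[2 ^ (36 + 10 * j)] heav) (2 * (32 * s)) := by
  set ε : ℝ := 1 / 4 ^ j with hε
  have hε0 : 0 < ε := by positivity
  have hε1 : ε ≤ 1 := by
    rw [hε, div_le_one (by positivity)]
    exact one_le_pow₀ (by norm_num)
  have hb := bd_base (r := s) (δ := ε * s) (R := 32 * s) isCdf_heav (by linarith) (by positivity)
    hs (m := 2 ^ (8 + 2 * j)) (by positivity) (a := 2 ^ (34 + 8 * j)) (by
      rw [← pow_mul, show 34 + 8 * j = 2 + (8 + 2 * j) * 4 by ring, pow_add 2 2]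
      omega)
  have hβ : 4 * s / (32 * s) + 32 * s / (ε * s * (2 ^ (8 + 2 * j) : ℕ)) = 1 / 4 := by
    rw [hε]
    push_cast
    rw [pow_add, pow_mul]
    field_simp
    norm_num
    ring
  rw [hβ] at hb
  have hk : ∀ k : ℕ, Bd s (ε * s) (32 * s) ((conv q Y)^[k] heav)
      (2 ^ (2 ^ (34 + 8 * j)) * (1 - ε / 2) ^ k) (1 / 4) := by
    intro k
    induction k with
    | zero => simpa using hb
    | succ k ih =>
      have := ih.good (iter_cdf hq Y k) (by linarith)
        (mul_nonneg (by positivity) (pow_nonneg (by linarith) _)) hq (u := 1) hg (by positivity)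
        (by simp) (by simp)
      rw [Function.iterate_succ_apply', pow_succ, ← mul_assoc]
      simpa only [one_mul] using this
  have h1 := (hk (2 ^ (36 + 10 * j))).inc (iter_cdf hq Y _) (by linarith)
  refine le_trans (mul_le_mul_of_nonneg_right ?_ (Real.log_nonneg one_le_two)) h1
  set a : ℕ := 2 ^ (34 + 8 * j) with ha
  have ha3 : (3 : ℝ) ≤ a := by
    have : 2 ^ 2 ≤ a := Nat.pow_le_pow_right (by norm_num) (by omega)
    exact_mod_cast (by omega : 3 ≤ a)
  have h2 : (1 - ε / 2) ^ 2 ^ (36 + 10 * j) ≤ exp (-(2 * a)) := by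
    refine (pow_le_pow_left₀ (by linarith) (Real.one_sub_le_exp_neg (ε / 2)) _).trans (le_of_eq ?_)
    rw [← Real.exp_nat_mul, ha, hε]
    congr 1
    push_cast
    rw [show 36 + 10 * j = (34 + 8 * j) + (2 + 2 * j) by ring, pow_add _ (34 + 8 * j), pow_add 2 2,
      pow_mul 2 2 j]
    field_simp
    norm_num
  have h3 : (2 : ℝ) ^ a ≤ exp a := by
    rw [← mul_one (a : ℝ), Real.exp_nat_mul]
    exact pow_le_pow_left₀ (by norm_num) (by linarith [Real.add_one_le_exp 1]) _
  have h4 : (2 : ℝ) ^ a * (1 - ε / 2) ^ 2 ^ (36 + 10 * j) ≤ exp a * exp (-(2 * a)) :=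
    mul_le_mul h3 h2 (pow_nonneg (by linarith) _) (exp_pos _).le
  rw [← Real.exp_add, show (a : ℝ) + -(2 * a) = -a by ring, Real.exp_neg] at h4
  have h5 : (exp (a : ℝ))⁻¹ ≤ 4⁻¹ := inv_anti₀ (by norm_num) (by linarith [Real.add_one_le_exp (a : ℝ)])
  linarith

/-- The counting lemma: few scales are good. -/
theorem count {X : Type*} [Fintype X] {q Y : A → ℝ} (hq : PV q) {c : X → ℝ} (hg : Gen q Y c)
    {ρ : ℝ} (hρ : 0 < ρ) (j n : ℕ) :
    ∑ k ∈ range n, gi q Y (ρ / 2 ^ (k + 1)) (1 / 4 ^ j) ≤ 74 * (j + 1) * Fintype.card X := by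
  set F := (conv q Y)^[2 ^ (36 + 10 * j)] heav with hF
  have hc : IsCdf F := iter_cdf hq Y _
  have hl : 0 < log 2 := Real.log_pos one_lt_two
  have h1 : ∀ k : ℕ, gi q Y (ρ / 2 ^ (k + 1)) (1 / 4 ^ j) * (1 / 2 * log 2) ≤
      Hs F (32 * ρ / 2 ^ (k + 1)) - Hs F (32 * ρ / 2 ^ k) := by
    intro k
    have e : 32 * ρ / 2 ^ k = 2 * (32 * (ρ / 2 ^ (k + 1))) := by
      rw [pow_succ]
      field_simp
    rw [e, mul_div_assoc 32]
    unfold gi
    split_ifs with h
    · rw [one_mul]
      exact inc_iter_of_good hq (by positivity) h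
    · rw [zero_mul]
      exact hc.inc_nonneg (by positivity)
  have h2 := Finset.sum_le_sum (fun k (_ : k ∈ range n) => h1 k)
  rw [Finset.sum_range_sub (fun k => Hs F (32 * ρ / 2 ^ k)), ← Finset.sum_mul] at h2
  have h3 := Hs_iter_le hq hg (2 ^ (36 + 10 * j)) (s := 32 * ρ / 2 ^ n) (by positivity)
  have h4 := hc.Hs_nonneg (s := 32 * ρ / 2 ^ 0) (by positivity)
  have h5 : log (((2 ^ (36 + 10 * j) : ℕ) : ℝ) + 1) ≤ 37 * (j + 1) * log 2 := by
    have h6 : (((2 ^ (36 + 10 * j) : ℕ) : ℝ) + 1) ≤ 2 ^ (37 * (j + 1)) := by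
      have h7 : 2 ^ (36 + 10 * j + 1) ≤ 2 ^ (37 * (j + 1)) :=
        Nat.pow_le_pow_right (by norm_num) (by omega)
      have h8 : 1 ≤ 2 ^ (36 + 10 * j) := Nat.one_le_two_pow
      rw [pow_succ] at h7
      exact_mod_cast (by omega : 2 ^ (36 + 10 * j) + 1 ≤ 2 ^ (37 * (j + 1)))
    refine (Real.log_le_log (by positivity) h6).trans (le_of_eq ?_)
    rw [Real.log_pow]
    push_cast
    ring
  have h9 := mul_le_mul_of_nonneg_left h5 (Nat.cast_nonneg (α := ℝ) (Fintype.card X))
  refine le_of_mul_le_mul_right ?_ (show 0 < 1 / 2 * log 2 by positivity)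
  rw [← hF] at h3
  linarith

/-- The entropy below scale `ρ` is carried by the good scales. -/
theorem entropy_split {X : Type*} [Fintype X] {q Y : A → ℝ} (hq : PV q) {c : X → ℝ}
    (hg : Gen q Y c) {ρ : ℝ} (hρ : 0 < ρ) {j : ℕ} (hj : 1 ≤ j) (n : ℕ) :
    Hs (conv q Y heav) (ρ / 2 ^ n) ≤ Hs (conv q Y heav) ρ +
      (∑ k ∈ range n, gi q Y (ρ / 2 ^ (k + 1)) (1 / 4 ^ j)) * log 2 +
        444 * Fintype.card X * ((2 * j + 6) / 2 ^ j) := by
  set F := conv q Y heav with hF
  have hc : IsCdf F := isCdf_heav.conv hq Y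
  set inc : ℕ → ℝ := fun k => Hs F (ρ / 2 ^ (k + 1)) - Hs F (ρ / 2 ^ k) with hinc
  have e : ∀ k : ℕ, ρ / 2 ^ k = 2 * (ρ / 2 ^ (k + 1)) := fun k => by
    rw [pow_succ]
    field_simp
  have i0 : ∀ k, 0 ≤ inc k := fun k => by
    simp only [hinc]
    rw [e k]
    exact hc.inc_nonneg (by positivity)
  have i1 : ∀ k, inc k ≤ log 2 := fun k => by
    simp only [hinc]
    rw [e k]
    exact hc.inc_le_log2 (by positivity)
  have i2 : ∀ k i, 1 ≤ i → ¬ Good q Y (ρ / 2 ^ (k + 1)) (1 / 4 ^ i) → inc k ≤ 6 / 2 ^ i :=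
    fun k i hi h => by
      simp only [hinc]
      rw [e k]
      exact inc_le_of_not_good hq Y (by positivity) hi h
  set S : ℕ → ℝ := fun i => ∑ k ∈ range n, (1 - gi q Y (ρ / 2 ^ (k + 1)) (1 / 4 ^ i)) * inc k
    with hS
  set B : ℕ → ℝ := fun i => 444 * Fintype.card X * ((2 * i + 6) / 2 ^ i) with hB
  have hB0 : ∀ i, 0 ≤ B i := fun i => by positivity
  have step : ∀ i, 1 ≤ i → S i - B i ≤ S (i + 1) - B (i + 1) := by
    intro i hi
    have h1 : ∀ k, (1 - gi q Y (ρ / 2 ^ (k + 1)) (1 / 4 ^ i)) * inc k ≤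
        (1 - gi q Y (ρ / 2 ^ (k + 1)) (1 / 4 ^ (i + 1))) * inc k +
          6 / 2 ^ i * gi q Y (ρ / 2 ^ (k + 1)) (1 / 4 ^ (i + 1)) := by
      intro k
      have h6 : (0 : ℝ) ≤ 6 / 2 ^ i := by positivity
      unfold gi
      split_ifs with h2 h3 h3
      · linarith
      · linarith [i0 k]
      · linarith [i2 k i hi h2]
      · linarith
    have h2 := Finset.sum_le_sum (fun k (_ : k ∈ range n) => h1 k)
    rw [Finset.sum_add_distrib, ← Finset.mul_sum] at h2
    have h3 := mul_le_mul_of_nonneg_left (count hq hg hρ (i + 1) n)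
      (show (0 : ℝ) ≤ 6 / 2 ^ i by positivity)
    have h4 : B i - B (i + 1) = 6 / 2 ^ i * (74 * (((i + 1 : ℕ) : ℝ) + 1) * Fintype.card X) := by
      simp only [hB]
      push_cast
      rw [pow_succ]
      field_simp
      ring
    simp only [hS]
    linarith
  have h5 : ∀ l : ℕ, S j - B j ≤ S (j + l) - B (j + l) := by
    intro l
    induction l with
    | zero => exact le_rfl
    | succ l ih => exact ih.trans (step _ (by omega))
  have h6 : ∀ l : ℕ, S j - B j ≤ n * 6 * (1 / 2) ^ l := by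
    intro l
    have h7 : S (j + l) ≤ ∑ _k ∈ range n, (6 : ℝ) * (1 / 2) ^ l := by
      refine Finset.sum_le_sum (fun k _ => ?_)
      unfold gi
      split_ifs with h
      · rw [sub_self, zero_mul]
        positivity
      · rw [sub_zero, one_mul, one_div, inv_pow, ← div_eq_mul_inv]
        exact (i2 k _ (by omega) h).trans (div_le_div_of_nonneg_left (by norm_num) (by positivity)
          (pow_le_pow_right₀ one_le_two (by omega)))
    rw [Finset.sum_const, Finset.card_range, nsmul_eq_mul] at h7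
    linarith [h5 l, hB0 (j + l)]
  have h8 : S j - B j ≤ 0 := by
    have := (tendsto_pow_atTop_nhds_zero_of_lt_one (r := (1 / 2 : ℝ)) (by norm_num)
      (by norm_num)).const_mul ((n : ℝ) * 6)
    rw [mul_zero] at this
    exact ge_of_tendsto' this h6
  have h9 : ∑ k ∈ range n, inc k = Hs F (ρ / 2 ^ n) - Hs F ρ := by
    simp only [hinc]
    rw [Finset.sum_range_sub (fun k => Hs F (ρ / 2 ^ k))]
    simp
  have h10 : ∑ k ∈ range n, inc k ≤
      S j + (∑ k ∈ range n, gi q Y (ρ / 2 ^ (k + 1)) (1 / 4 ^ j)) * log 2 := by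
    simp only [hS]
    rw [Finset.sum_mul, ← Finset.sum_add_distrib]
    refine Finset.sum_le_sum (fun k _ => ?_)
    nlinarith [mul_le_mul_of_nonneg_left (i1 k) (gi_nonneg q Y (ρ / 2 ^ (k + 1)) (1 / 4 ^ j))]
  simp only [hB] at h8
  linarith

end Crest.Agent.R98
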