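import Mathlib
import Crest.Prelude.Def_SelfSimilar

/-! Row 98 (dimension of self-similar measures): definitions and basic facts on words,
iterated and stopped systems, compact support and large deviations. -/

set_option autoImplicit false

namespace Crest.Agent.R98

open MeasureTheory Finset Crest.AnalysisR
open scoped ENNReal

/-- `μ` is the `q`-mixture of its affine images `x ↦ a w * x + b w`. -/
def SS (μ : Measure ℝ) {A : Type*} [Fintype A] (q a b : A → ℝ) : Prop :=
  μ = ∑ w, ENNReal.ofReal (q w) • μ.map (fun x : ℝ => a w * x + b w)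

/-- A probability vector. -/
structure PV {A : Type*} [Fintype A] (q : A → ℝ) : Prop where
  nonneg : ∀ a, 0 ≤ q a
  sum : ∑ a, q a = 1

/-- Product along a word (used for weights and for ratios). -/
def wp {ι : Type*} (p : ι → ℝ) {n : ℕ} (w : Fin n → ι) : ℝ := ∏ j, p (w j)

/-- Translation part of a word. -/
noncomputable def wt {ι : Type*} (r t : ι → ℝ) {n : ℕ} (w : Fin n → ι) : ℝ :=
  affineWordMap r t (List.ofFn w) 0

/-- Distribution functions of compactly supported laws (no one-sided continuity required). -/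
structure IsCdf (F : ℝ → ℝ) : Prop where
  mono : Monotone F
  bd : ∃ M : ℝ, ∀ y, (y ≤ -M → F y = 0) ∧ (M ≤ y → F y = 1)

/-- Mass of the window `(y - s, y]`. -/
def win (F : ℝ → ℝ) (s y : ℝ) : ℝ := F y - F (y - s)

/-- Averaged entropy at scale `s`. -/
noncomputable def Hs (F : ℝ → ℝ) (s : ℝ) : ℝ := (∫ y, Real.negMulLog (win F s y)) / s

/-- Distribution function of `u X`, `X ∼ μ`. -/
noncomputable def cdf (μ : Measure ℝ) (u y : ℝ) : ℝ := μ.real {x | u * x ≤ y}

section words

variable {ι : Type*}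

theorem wp_cons (p : ι → ℝ) {n : ℕ} (i : ι) (w : Fin n → ι) :
    wp p (Fin.cons i w : Fin (n + 1) → ι) = p i * wp p w := by
  simp [wp, Fin.prod_univ_succ]

theorem word_map (r t : ι → ℝ) {n : ℕ} (w : Fin n → ι) (x : ℝ) :
    affineWordMap r t (List.ofFn w) x = wp r w * x + wt r t w := by
  induction n generalizing x with
  | zero => simp [affineWordMap, wp, wt]
  | succ n ih =>
    have h : ∀ y, affineWordMap r t (List.ofFn w) y =
        r (w 0) * affineWordMap r t (List.ofFn fun j => w j.succ) y + t (w 0) := by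
      intro y
      rw [List.ofFn_succ]
      rfl
    unfold wt
    rw [h, h, ih, ih]
    simp only [wp, Fin.prod_univ_succ]
    ring

theorem wt_cons (r t : ι → ℝ) {n : ℕ} (i : ι) (w : Fin n → ι) :
    wt r t (Fin.cons i w : Fin (n + 1) → ι) = r i * wt r t w + t i := by
  unfold wt
  rw [List.ofFn_succ]
  simp only [Fin.cons_zero, Fin.cons_succ]
  rfl

/-- Within one sequence of ratios the translation part is a fixed linear form. -/
theorem exists_coef (r t : ι → ℝ) {n : ℕ} (e : Fin n → ℝ) :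
    ∃ c : Fin n → ℝ, ∀ w : Fin n → ι, (∀ j, r (w j) = e j) → wt r t w = ∑ j, c j * t (w j) := by
  induction n with
  | zero => exact ⟨fun _ => 0, fun w _ => by simp [wt, affineWordMap]⟩
  | succ n ih =>
    obtain ⟨c, hc⟩ := ih (fun j => e j.succ)
    refine ⟨Fin.cons 1 (fun j => e 0 * c j), fun w hw => ?_⟩
    rw [← Fin.cons_self_tail w, wt_cons, hc (Fin.tail w) (fun j => hw j.succ), Fin.sum_univ_succ, hw 0,
      Finset.mul_sum]
    simp only [Fin.cons_zero, Fin.cons_succ, one_mul, mul_assoc]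
    ring

variable [Fintype ι]

theorem sum_wp (p : ι → ℝ) (n : ℕ) : ∑ w : Fin n → ι, wp p w = (∑ i, p i) ^ n := by
  classical
  unfold wp
  rw [← Fintype.piFinset_univ, ← Finset.prod_univ_sum (fun _ => Finset.univ) (fun _ i => p i)]
  simp

theorem PV.wp {p : ι → ℝ} (hp : PV p) (n : ℕ) : PV (wp p (n := n)) :=
  ⟨fun w => Finset.prod_nonneg (fun _ _ => hp.nonneg _), by rw [sum_wp, hp.sum, one_pow]⟩

/-- Large deviations for sums along words. -/
theorem large_dev {p : ι → ℝ} (hp : PV p) (ξ : ι → ℝ) {ε : ℝ} (hε : 0 < ε) :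
    ∃ κ : ℝ, 0 ≤ κ ∧ κ < 1 ∧ ∀ n : ℕ,
      ∑ w : Fin n → ι, (if (∑ i, p i * ξ i + ε) * n < ∑ j, ξ (w j) then wp p w else 0) ≤ κ ^ n := by
  classical
  set m := ∑ i, p i * ξ i with hm
  set C := ∑ i, |ξ i - m - ε| + 1 with hC
  have hCi : ∀ i, |ξ i - m - ε| ≤ C := fun i =>
    (Finset.single_le_sum (f := fun i => |ξ i - m - ε|) (fun _ _ => abs_nonneg _)
      (Finset.mem_univ i)).trans (by linarith)
  have hC1 : 1 ≤ C := by
    have : 0 ≤ ∑ i, |ξ i - m - ε| := Finset.sum_nonneg (fun _ _ => abs_nonneg _)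
    linarith
  set θ := min (1 / C) (ε / (2 * C ^ 2)) with hθ
  have hθ0 : 0 < θ := lt_min (by positivity) (by positivity)
  have hθ1 : θ * C ≤ 1 := by
    rw [← le_div_iff₀ (by linarith)]
    exact min_le_left _ _
  have hθ2 : θ * (2 * C ^ 2) ≤ ε := by
    rw [← le_div_iff₀ (by positivity)]
    exact min_le_right _ _
  refine ⟨∑ i, p i * Real.exp (θ * (ξ i - m - ε)),
    Finset.sum_nonneg (fun i _ => mul_nonneg (hp.nonneg i) (Real.exp_pos _).le), ?_, fun n => ?_⟩
  · have h1 : ∀ i, p i * Real.exp (θ * (ξ i - m - ε)) ≤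
        p i * (1 + θ * (ξ i - m - ε) + θ ^ 2 * C ^ 2) := by
      intro i
      refine mul_le_mul_of_nonneg_left ?_ (hp.nonneg i)
      have h2 : |θ * (ξ i - m - ε)| ≤ 1 := by
        rw [abs_mul, abs_of_pos hθ0]
        exact (mul_le_mul_of_nonneg_left (hCi i) hθ0.le).trans hθ1
      have h3 := (abs_le.1 (Real.abs_exp_sub_one_sub_id_le h2)).2
      have h4 : (ξ i - m - ε) ^ 2 ≤ C ^ 2 := by
        rw [← sq_abs]
        exact pow_le_pow_left₀ (abs_nonneg _) (hCi i) 2
      rw [mul_pow] at h3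
      nlinarith [mul_le_mul_of_nonneg_left h4 (sq_nonneg θ)]
    refine (Finset.sum_le_sum (fun i _ => h1 i)).trans_lt ?_
    have h5 : ∑ i, p i * (1 + θ * (ξ i - m - ε) + θ ^ 2 * C ^ 2) =
        (1 - θ * (m + ε) + θ ^ 2 * C ^ 2) * ∑ i, p i + θ * ∑ i, p i * ξ i := by
      rw [Finset.mul_sum, Finset.mul_sum, ← Finset.sum_add_distrib]
      exact Finset.sum_congr rfl (fun i _ => by ring)
    rw [h5, hp.sum, ← hm]
    nlinarith [mul_pos hθ0 hε]
  · rw [← sum_wp]
    refine Finset.sum_le_sum (fun w _ => ?_)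
    have h6 : wp (fun i => p i * Real.exp (θ * (ξ i - m - ε))) w =
        wp p w * Real.exp (θ * (∑ j, ξ (w j) - (m + ε) * n)) := by
      unfold wp
      rw [Finset.prod_mul_distrib, ← Real.exp_sum, ← Finset.mul_sum]
      congr 3
      simp only [Finset.sum_sub_distrib, Finset.sum_const, Finset.card_univ, Fintype.card_fin,
        nsmul_eq_mul]
      ring
    rw [h6]
    have h7 := (hp.wp n).nonneg w
    split_ifs with h
    · exact le_mul_of_one_le_right h7 (Real.one_le_exp (mul_nonneg hθ0.le (by linarith)))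
    · exact mul_nonneg h7 (Real.exp_pos _).le

end words

section ss

variable {μ : Measure ℝ}

theorem meas_aff (a b : ℝ) : Measurable (fun x : ℝ => a * x + b) := by fun_prop

theorem SS.comp {A : Type*} [Fintype A] {q a b : A → ℝ} (h : SS μ q a b) (hq : ∀ w, 0 ≤ q w)
    {B : A → Type*} [∀ w, Fintype (B w)] {q' a' b' : ∀ w, B w → ℝ}
    (h' : ∀ w, SS μ (q' w) (a' w) (b' w)) :
    SS μ (fun x : Σ w, B w => q x.1 * q' x.1 x.2) (fun x => a x.1 * a' x.1 x.2)
      (fun x => a x.1 * b' x.1 x.2 + b x.1) := by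
  unfold SS
  rw [Fintype.sum_sigma]
  refine h.trans (Finset.sum_congr rfl (fun w _ => ?_))
  conv_lhs => rw [h' w]
  rw [← Measure.mapₗ_apply_of_measurable (meas_aff _ _), map_sum, Finset.smul_sum]
  refine Finset.sum_congr rfl (fun v _ => ?_)
  rw [Measure.mapₗ_apply_of_measurable (meas_aff _ _), Measure.map_smul, smul_smul, Measure.map_map (meas_aff _ _) (meas_aff _ _),
    ENNReal.ofReal_mul (hq w)]
  congr 2
  funext x
  simp only [Function.comp]
  ring

theorem SS.equiv {A A' : Type*} [Fintype A] [Fintype A'] {q a b : A → ℝ} (h : SS μ q a b)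
    (e : A' ≃ A) : SS μ (fun x => q (e x)) (fun x => a (e x)) (fun x => b (e x)) := by
  unfold SS
  rw [Equiv.sum_comp e
    (fun w => ENNReal.ofReal (q w) • μ.map (fun x : ℝ => a w * x + b w))]
  exact h

theorem SS.trivial (A : Type*) [Unique A] [Fintype A] :
    SS μ (fun _ : A => 1) (fun _ => 1) (fun _ => 0) := by
  simp [SS]

variable {ι : Type*} [Fintype ι] {p r t : ι → ℝ}

theorem SS.iter (h : SS μ p r t) (hp : ∀ i, 0 ≤ p i) (n : ℕ) :
    SS μ (wp p (n := n)) (wp r) (wt r t) := by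
  induction n with
  | zero =>
    have := SS.trivial (μ := μ) (Fin 0 → ι)
    convert this using 1 <;> funext w <;> simp [wp, wt, affineWordMap]
  | succ n ih =>
    have h1 := (h.comp hp (B := fun _ => Fin n → ι) (fun _ => ih)).equiv
      ((Fin.consEquiv (fun _ : Fin (n + 1) => ι)).symm.trans (Equiv.sigmaEquivProd _ _).symm)
    convert h1 using 1 <;> funext w
    · conv_lhs => rw [← Fin.cons_self_tail w, wp_cons]
      rfl
    · conv_lhs => rw [← Fin.cons_self_tail w, wp_cons]
      rfl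
    · conv_lhs => rw [← Fin.cons_self_tail w, wt_cons]
      rfl

/-- Uniform bounds for the ratios. -/
theorem exists_bounds [Nonempty ι] (hr : ∀ i, r i ≠ 0 ∧ |r i| < 1) :
    ∃ c R : ℝ, 0 < c ∧ R < 1 ∧ ∀ i, c ≤ |r i| ∧ |r i| ≤ R := by
  obtain ⟨i, -, hi⟩ := Finset.exists_min_image Finset.univ (fun i => |r i|) Finset.univ_nonempty
  obtain ⟨j, -, hj⟩ := Finset.exists_max_image Finset.univ (fun i => |r i|) Finset.univ_nonempty
  exact ⟨|r i|, |r j|, abs_pos.2 (hr i).1, (hr j).2,
    fun k => ⟨hi k (Finset.mem_univ _), hj k (Finset.mem_univ _)⟩⟩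

/-- Stopping the system at scale `s`. -/
theorem SS.cut (h : SS μ p r t) (hp : PV p) {c R : ℝ} (hc : 0 < c) (hR : R < 1)
    (hr : ∀ i, c ≤ |r i| ∧ |r i| ≤ R) {s : ℝ} (hs : 0 < s) (hs1 : s ≤ 1) :
    ∃ (A : Type) (_ : Fintype A) (q a b : A → ℝ), PV q ∧ SS μ q a b ∧
      ∀ w, c * s ≤ |a w| ∧ |a w| ≤ s := by
  classical
  have hne : Nonempty ι := by
    by_contra h0
    have := hp.sum
    rw [not_nonempty_iff] at h0
    simp at this
  obtain ⟨i0⟩ := hne
  have hR0 : 0 < R := hc.trans_le ((hr i0).1.trans (hr i0).2)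
  have hc1 : c ≤ 1 := ((hr i0).1.trans (hr i0).2).trans hR.le
  have key : ∀ n : ℕ, ∀ s : ℝ, R ^ n ≤ s → ∃ (A : Type) (_ : Fintype A) (q a b : A → ℝ),
      PV q ∧ SS μ q a b ∧ ∀ w, (c * s ≤ |a w| ∨ a w = 1) ∧ |a w| ≤ s := by
    have triv : ∀ s : ℝ, 1 ≤ s → ∃ (A : Type) (_ : Fintype A) (q a b : A → ℝ),
        PV q ∧ SS μ q a b ∧ ∀ w, (c * s ≤ |a w| ∨ a w = 1) ∧ |a w| ≤ s := fun s hs =>
      ⟨Unit, inferInstance, fun _ => 1, fun _ => 1, fun _ => 0, ⟨fun _ => zero_le_one, by simp⟩,
        SS.trivial Unit, fun _ => ⟨Or.inr rfl, by simpa using hs⟩⟩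
    intro n
    induction n with
    | zero => exact fun s hs => triv s (by simpa using hs)
    | succ n ih =>
      intro s hs
      rcases le_or_gt 1 s with h1 | h1
      · exact triv s h1
      have hpos : ∀ i, 0 < |r i| := fun i => hc.trans_le (hr i).1
      have hle : ∀ i, R ^ n ≤ s / |r i| := by
        intro i
        rw [le_div_iff₀ (hpos i)]
        exact (mul_le_mul_of_nonneg_left (hr i).2 (pow_pos hR0 n).le).trans
          (by rwa [← pow_succ])
      let e := (Fintype.equivFin ι).symm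
      choose A hA q a b hq hS hab using fun i : Fin (Fintype.card ι) => ih _ (hle (e i))
      refine ⟨Σ i, A i, inferInstance, _, _, _, ⟨fun x => ?_, ?_⟩,
        (h.equiv e).comp (fun _ => hp.nonneg _) hS, fun x => ⟨Or.inl ?_, ?_⟩⟩
      · exact mul_nonneg (hp.nonneg _) ((hq _).nonneg _)
      · rw [Fintype.sum_sigma]
        simp only [← Finset.mul_sum, (hq _).sum, mul_one]
        rw [Equiv.sum_comp e p, hp.sum]
      · rw [abs_mul]
        rcases (hab x.1 x.2).1 with h2 | h2
        · have := mul_le_mul_of_nonneg_left h2 (hpos (e x.1)).le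
          rwa [mul_left_comm, mul_div_cancel₀ _ (hpos _).ne'] at this
        · rw [h2, abs_one, mul_one]
          exact (mul_le_of_le_one_right hc.le h1.le).trans (hr _).1
      · rw [abs_mul]
        have := mul_le_mul_of_nonneg_left (hab x.1 x.2).2 (hpos (e x.1)).le
        rwa [mul_div_cancel₀ _ (hpos _).ne'] at this
  obtain ⟨n, hn⟩ := exists_pow_lt_of_lt_one hs hR
  obtain ⟨A, hA, q, a, b, hq, hS, hab⟩ := key n s hn.le
  refine ⟨A, hA, q, a, b, hq, hS, fun w => ⟨?_, (hab w).2⟩⟩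
  rcases (hab w).1 with h2 | h2
  · exact h2
  · rw [h2, abs_one]
    exact mul_le_one₀ hc1 hs.le hs1

theorem SS.real_apply [IsFiniteMeasure μ] {A : Type*} [Fintype A] {q a b : A → ℝ}
    (h : SS μ q a b) (hq : ∀ w, 0 ≤ q w) {S : Set ℝ} (hS : MeasurableSet S) :
    μ.real S = ∑ w, q w * μ.real {x | a w * x + b w ∈ S} := by
  have h1 : μ S = ∑ w, ENNReal.ofReal (q w) * μ {x | a w * x + b w ∈ S} := by
    conv_lhs => rw [h]
    rw [Measure.finsetSum_apply]
    refine Finset.sum_congr rfl (fun w _ => ?_)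
    rw [Measure.smul_apply, Measure.map_apply (meas_aff _ _) hS, smul_eq_mul]
    rfl
  rw [Measure.real, h1, ENNReal.toReal_sum
    (fun w _ => ENNReal.mul_ne_top ENNReal.ofReal_ne_top (measure_ne_top _ _))]
  refine Finset.sum_congr rfl (fun w _ => ?_)
  rw [ENNReal.toReal_mul, ENNReal.toReal_ofReal (hq w)]
  rfl

/-- Compact support. -/
theorem SS.support [IsProbabilityMeasure μ] (h : SS μ p r t) (hp : PV p) {c R : ℝ} (hc : 0 < c)
    (hR : R < 1) (hr : ∀ i, c ≤ |r i| ∧ |r i| ≤ R) :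
    ∃ M : ℝ, 0 < M ∧ μ {x | M < |x|} = 0 := by
  have hne : Nonempty ι := by
    by_contra h0
    have := hp.sum
    rw [not_nonempty_iff] at h0
    simp at this
  obtain ⟨i0⟩ := hne
  have hR0 : 0 < R := hc.trans_le ((hr i0).1.trans (hr i0).2)
  set T := ∑ i, |t i| with hT
  have hTi : ∀ i, |t i| ≤ T := fun i =>
    Finset.single_le_sum (f := fun i => |t i|) (fun _ _ => abs_nonneg _) (Finset.mem_univ i)
  have hT0 : 0 ≤ T := (abs_nonneg _).trans (hTi i0)
  set M := T / (1 - R) with hM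
  have hM0 : 0 ≤ M := div_nonneg hT0 (by linarith)
  have hMT : R * M + T = M := by
    rw [hM]
    have : 1 - R ≠ 0 := by linarith
    field_simp
    ring
  have hm : ∀ s : ℝ, MeasurableSet {x : ℝ | s < |x|} := fun s =>
    measurableSet_lt measurable_const (by fun_prop)
  have step : ∀ v : ℝ, μ.real {x | M + v < |x|} ≤ μ.real {x | M + v / R < |x|} := by
    intro v
    rw [h.real_apply hp.nonneg (hm _), ← one_mul (μ.real {x | M + v / R < |x|}), ← hp.sum,
      Finset.sum_mul]
    refine Finset.sum_le_sum (fun i _ => mul_le_mul_of_nonneg_left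
      (measureReal_mono (fun x hx => ?_)) (hp.nonneg i))
    simp only [Set.mem_ofPred_eq] at hx ⊢
    have h1 : |r i * x + t i| ≤ R * |x| + T := by
      refine (abs_add_le _ _).trans (add_le_add ?_ (hTi i))
      rw [abs_mul]
      exact mul_le_mul_of_nonneg_right (hr i).2 (abs_nonneg _)
    have h2 : R * (M + v / R) < R * |x| := by
      rw [mul_add, mul_div_cancel₀ _ hR0.ne']
      linarith
    exact lt_of_mul_lt_mul_left h2 hR0.le
  have iter : ∀ n : ℕ, μ.real {x | M + 1 < |x|} ≤ μ.real {x | M + (1 / R) ^ n < |x|} := by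
    intro n
    induction n with
    | zero => simp
    | succ n ih =>
      refine ih.trans ((step _).trans (le_of_eq ?_))
      rw [pow_succ, mul_one_div]
  have h1R : 1 < 1 / R := by rwa [lt_div_iff₀ hR0, one_mul]
  have hlim := tendsto_measure_iInter_atTop (μ := μ)
    (s := fun n : ℕ => {x : ℝ | M + (1 / R) ^ n < |x|}) (fun n => (hm _).nullMeasurableSet)
    (fun n k hnk x hx => by
      simp only [Set.mem_ofPred_eq] at hx ⊢
      have := pow_le_pow_right₀ h1R.le hnk
      linarith) ⟨0, measure_ne_top _ _⟩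
  have hempty : (⋂ n : ℕ, {x : ℝ | M + (1 / R) ^ n < |x|}) = ∅ := by
    ext x
    simp only [Set.mem_iInter, Set.mem_ofPred_eq, Set.mem_empty_iff_false, iff_false, not_forall,
      not_lt]
    obtain ⟨n, hn⟩ := pow_unbounded_of_one_lt |x| h1R
    exact ⟨n, by linarith⟩
  rw [hempty, measure_empty] at hlim
  refine ⟨M + 1, by linarith, le_antisymm (ge_of_tendsto' hlim (fun n => ?_)) zero_le⟩
  exact (ENNReal.toReal_le_toReal (measure_ne_top _ _) (measure_ne_top _ _)).1 (iter n)

end ss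

end Crest.Agent.R98
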