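import Crest.Agent.R98.Count

/-! Row 98: conditioning on an environment, and the block step. -/

set_option autoImplicit false

namespace Crest.Agent.R98

open MeasureTheory Finset Real Crest.AnalysisR

section env

variable {A Z : Type*} [Fintype A] [DecidableEq Z]

/-- Weight of an environment. -/
noncomputable def PE (p : A → ℝ) (env : A → Z) (e : Z) : ℝ := ∑ a, if env a = e then p a else 0

/-- Conditional weights in an environment. -/
noncomputable def qE (p : A → ℝ) (env : A → Z) (e : Z) (a : A) : ℝ :=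
  if env a = e then p a / PE p env e else 0

/-- The environments that occur. -/
abbrev EE (env : A → Z) : Finset Z := Finset.univ.image env

variable {p : A → ℝ} (hp : PV p) (hp0 : ∀ a, 0 < p a) (env : A → Z)
include hp0

theorem PE_pos (a : A) : 0 < PE p env (env a) :=
  Finset.sum_pos' (fun b _ => by split_ifs; exacts [(hp0 b).le, le_rfl])
    ⟨a, Finset.mem_univ a, by rw [if_pos rfl]; exact hp0 a⟩

theorem PE_pos' (e : EE env) : 0 < PE p env e := by
  obtain ⟨a, -, ha⟩ := Finset.mem_image.1 e.2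
  rw [← ha]
  exact PE_pos hp0 env a

theorem PV_qE (e : EE env) : PV (qE p env e) := by
  have h := PE_pos' hp0 env e
  refine ⟨fun a => ?_, ?_⟩
  · unfold qE
    split_ifs
    exacts [div_nonneg (hp0 a).le h.le, le_rfl]
  · have : ∀ a, qE p env e a = (if env a = e then p a else 0) / PE p env e := by
      intro a
      unfold qE
      split_ifs <;> simp
    simp only [this, ← Finset.sum_div]
    exact div_self h.ne'

theorem sum_env (f : Z → A → ℝ) :
    ∑ e : EE env, PE p env e * ∑ a, qE p env e a * f e a = ∑ a, p a * f (env a) a := by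
  simp only [Finset.mul_sum]
  rw [Finset.sum_comm]
  refine Finset.sum_congr rfl (fun a _ => ?_)
  rw [Finset.sum_eq_single ⟨env a, Finset.mem_image_of_mem _ (Finset.mem_univ a)⟩]
  · simp only [qE, if_true]
    have := (PE_pos hp0 env a).ne'
    field_simp
  · intro e _ he
    rw [qE, if_neg (fun h => he (Subtype.ext h.symm)), zero_mul, mul_zero]
  · simp

theorem sum_env' (f : Z → ℝ) : ∑ e : EE env, PE p env e * f e = ∑ a, p a * f (env a) := by
  rw [← sum_env hp0 env (fun e _ => f e)]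
  refine Finset.sum_congr rfl (fun e _ => ?_)
  rw [← Finset.sum_mul, (PV_qE hp0 env e).sum, one_mul]

include hp

theorem PV_PE : PV (fun e : EE env => PE p env e) :=
  ⟨fun e => (PE_pos' hp0 env e).le, by simpa [hp.sum] using sum_env' hp0 env (fun _ => 1)⟩

theorem entropy_env {β : Type*} (Y : A → ℝ) (g : A → β)
    (hg : ∀ a b, env b = env a → Y b = Y a → g b = g a) {N : ℝ} (hN : 0 < N)
    (hc : ((EE env).card : ℝ) ≤ N) :
    finiteLawEntropy p g ≤ log N + ∑ e : EE env, PE p env e *
      -∑ a, qE p env e a * log (∑ b, if Y b = Y a then qE p env e b else 0) := by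
  have h1 : ∑ e : EE env, PE p env e * -log (PE p env e) ≤ log N := by
    have h2 : ∀ e : EE env, PE p env e * -log (PE p env e) ≤
        PE p env e * (log N - 1) + N⁻¹ := by
      intro e
      have := gibbs (PE_pos' hp0 env e).le (inv_pos.2 hN)
      rw [Real.log_inv, negMulLog] at this
      linarith
    refine (Finset.sum_le_sum (fun e _ => h2 e)).trans ?_
    rw [Finset.sum_add_distrib, ← Finset.sum_mul, (PV_PE hp hp0 env).sum, Finset.sum_const,
      Finset.card_univ, Fintype.card_coe, nsmul_eq_mul]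
    have : ((EE env).card : ℝ) * N⁻¹ ≤ 1 := by rwa [mul_inv_le_iff₀ hN, one_mul]
    linarith
  rw [sum_env' hp0 env (fun e => -log (PE p env e))] at h1
  simp only [mul_neg, Finset.sum_neg_distrib] at h1 ⊢
  rw [sum_env hp0 env (fun e a => log (∑ b, if Y b = Y a then qE p env e b else 0))]
  have h3 : ∀ a, p a * log (PE p env (env a)) +
      p a * log (∑ b, if Y b = Y a then qE p env (env a) b else 0) ≤
      p a * log (∑ b, ({b : A | g b = g a} : Set A).indicator p b) := by
    intro a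
    have hP := PE_pos hp0 env a
    have hq := (PV_qE hp0 env ⟨env a, Finset.mem_image_of_mem _ (Finset.mem_univ a)⟩).nonneg
    have h4 : 0 < ∑ b, if Y b = Y a then qE p env (env a) b else 0 :=
      Finset.sum_pos' (fun b _ => by split_ifs; exacts [hq b, le_rfl])
        ⟨a, Finset.mem_univ a, by simpa [qE] using div_pos (hp0 a) hP⟩
    rw [← mul_add, ← Real.log_mul hP.ne' h4.ne']
    refine mul_le_mul_of_nonneg_left (Real.log_le_log (mul_pos hP h4) ?_) (hp0 a).le
    rw [Finset.mul_sum]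
    refine Finset.sum_le_sum (fun b _ => ?_)
    have h5 : 0 ≤ ({b : A | g b = g a} : Set A).indicator p b :=
      Set.indicator_nonneg (fun b _ => (hp0 b).le) b
    unfold qE
    split_ifs with h6 h7
    · rw [Set.indicator_of_mem (show b ∈ {b : A | g b = g a} from hg a b h7 h6),
        mul_div_cancel₀ _ hP.ne']
    · rwa [mul_zero]
    · rwa [mul_zero]
  have h8 := Finset.sum_le_sum (fun a (_ : a ∈ Finset.univ) => h3 a)
  rw [Finset.sum_add_distrib] at h8
  unfold finiteLawEntropy
  linarith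

end env

variable {ι : Type*} [Fintype ι] {p r t : ι → ℝ} {μ : Measure ℝ}

/-- The sequence of ratios of a word. -/
def envW (r : ι → ℝ) (n : ℕ) (w : Fin n → ι) : Fin n → ℝ := fun j => r (w j)

/-- The environments of length `n`. -/
noncomputable abbrev EW (r : ι → ℝ) (n : ℕ) : Finset (Fin n → ℝ) := by
  classical exact EE (envW r n)

/-- Their weights. -/
noncomputable def PW (p r : ι → ℝ) (n : ℕ) (e : Fin n → ℝ) : ℝ := by
  classical exact PE (wp p) (envW r n) e

/-- The conditional laws. -/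
noncomputable def qW (p r : ι → ℝ) (n : ℕ) (e : Fin n → ℝ) : (Fin n → ι) → ℝ := by
  classical exact qE (wp p) (envW r n) e

omit [Fintype ι] in
theorem wp_pos (hp0 : ∀ i, 0 < p i) {n : ℕ} (w : Fin n → ι) : 0 < wp p w :=
  Finset.prod_pos (fun _ _ => hp0 _)

theorem PV_qW (hp0 : ∀ i, 0 < p i) {n : ℕ} (e : EW r n) : PV (qW p r n e) := by
  classical
  exact PV_qE (wp_pos hp0) _ e

theorem PV_PW (hp : PV p) (hp0 : ∀ i, 0 < p i) (n : ℕ) : PV (fun e : EW r n => PW p r n e) := by
  classical
  exact PV_PE (hp.wp n) (wp_pos hp0) _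

theorem sum_PW (hp0 : ∀ i, 0 < p i) {n : ℕ} (f : (Fin n → ℝ) → ℝ) :
    ∑ e : EW r n, PW p r n e * f e = ∑ w, wp p w * f (envW r n w) := by
  classical
  exact sum_env' (wp_pos hp0) _ f

theorem gen_qW (n : ℕ) (e : Fin n → ℝ) :
    ∃ c : Fin n × ι → ℝ, Gen (qW p r n e) (wt r t) c := by
  classical
  obtain ⟨c, hc⟩ := exists_coef r t e
  refine ⟨fun x => c x.1 * t x.2, fun w hw => ⟨fun x => if w x.1 = x.2 then 1 else 0,
    fun x => by dsimp only; split_ifs <;> simp, ?_⟩⟩
  have h : envW r n w = e := by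
    by_contra h
    exact hw (if_neg h)
  rw [hc w (fun j => congrFun h j), Fintype.sum_prod_type]
  simp

variable [IsProbabilityMeasure μ]

theorem cdf_env (h : SS μ p r t) (hp0 : ∀ i, 0 < p i) (n : ℕ) (u y : ℝ) :
    cdf μ u y = ∑ e : EW r n, PW p r n e *
      conv (qW p r n e) (fun w => u * wt r t w) (cdf μ (u * ∏ j, e.1 j)) y := by
  classical
  rw [cdf_expand (h.iter (fun i => (hp0 i).le) n) (fun w => (wp_pos hp0 w).le)]
  exact (sum_env (wp_pos hp0) (envW r n)
    (fun e w => cdf μ (u * ∏ j, e j) (y - u * wt r t w))).symm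

/-- Flatness of all magnifications `u X` with `|u| ≥ Λ ρ` at scale `ρ`. -/
def GoodL (μ : Measure ℝ) (δ0 R0 Λ x β : ℝ) : Prop :=
  ∀ ρ : ℝ, 0 < ρ → ∀ u : ℝ, Λ * ρ ≤ |u| → Bd ρ (δ0 * ρ) (R0 * ρ) (cdf μ u) x β

omit [IsProbabilityMeasure μ] in
theorem GoodL.mono {δ0 R0 Λ x β x' β' : ℝ} (h : GoodL μ δ0 R0 Λ x β) (hR : 0 ≤ R0) (hx : x ≤ x')
    (hβ : β ≤ β') : GoodL μ δ0 R0 Λ x' β' :=
  fun ρ hρ u hu => (h ρ hρ u hu).mono (mul_nonneg hR hρ.le) hx hβ

theorem block_step (h : SS μ p r t) (hp : PV p) (hp0 : ∀ i, 0 < p i) {c R : ℝ} (hc : 0 < c)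
    (hR : R < 1) (hr : ∀ i, c ≤ |r i| ∧ |r i| ≤ R) {ε R0 Λ x β : ℝ} (hε : 0 ≤ ε) (hR0 : 0 ≤ R0)
    (hx : 0 ≤ x) (hβ : 0 ≤ β) (hG : GoodL μ (ε * c) R0 Λ x β) (n : ℕ) {s : ℝ} (hs : 0 < s)
    (ok : (Fin n → ℝ) → Prop) [DecidablePred ok]
    (hok : ∀ e : EW r n, ok e → Λ * s ≤ c * |∏ j, e.1 j|) :
    GoodL μ (ε * c) R0 (1 / s)
      (x * (1 - ε / 2 * ∑ e : EW r n,
        PW p r n e * if ok e then gi (qW p r n e) (wt r t) s ε else 0))
      (β + ∑ e : EW r n, PW p r n e * if ok e then 0 else 1) := by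
  obtain ⟨M, -, hM⟩ := h.support hp hc hR hr
  have hP := PV_PW (r := r) hp hp0 n
  intro ρ hρ u hu
  have hRρ : 0 ≤ R0 * ρ := mul_nonneg hR0 hρ.le
  have hu0 : 0 < |u| := lt_of_lt_of_le (by positivity) hu
  have win : ∀ v : ℝ, c * ρ ≤ |v| * s → |v| * s ≤ ρ → Bd ρ (ε * c * ρ) (R0 * ρ) (cdf μ v)
      (x * (1 - ε / 2 * ∑ e : EW r n,
        PW p r n e * if ok e then gi (qW p r n e) (wt r t) s ε else 0))
      (β + ∑ e : EW r n, PW p r n e * if ok e then 0 else 1) := by
    intro v hv1 hv2
    have h1 := bd_mix (r := ρ) (δ := ε * c * ρ) (R := R0 * ρ) (F := cdf μ v) hP.nonneg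
      (fun _ => 0) (G := fun e : EW r n =>
        conv (qW p r n e) (fun w => v * wt r t w) (cdf μ (v * ∏ j, e.1 j)))
      (fun e => (isCdf_cdf hM _).conv (PV_qW hp0 e) _)
      (x := fun e => x * (1 - ε / 2 * if ok e then gi (qW p r n e) (wt r t) s ε else 0))
      (β := fun e => β + if ok e then 0 else 1)
      (fun e _ => by
        by_cases he : ok e
        · simp only [if_pos he, add_zero]
          have h2 : Bd ρ (ε * c * ρ) (R0 * ρ) (cdf μ (v * ∏ j, e.1 j)) x β := by
            refine hG ρ hρ _ (le_of_mul_le_mul_right ?_ hs)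
            rw [abs_mul]
            nlinarith [mul_le_mul_of_nonneg_right (hok e he) hρ.le,
              mul_le_mul_of_nonneg_right hv1 (abs_nonneg (∏ j, e.1 j))]
          unfold gi
          split_ifs with hg
          · rw [mul_one]
            refine h2.good (isCdf_cdf hM _) hRρ hx (PV_qW hp0 e) hg (mul_nonneg hε hs.le) ?_ hv2
            nlinarith [mul_le_mul_of_nonneg_left hv1 hε]
          · rw [mul_zero, sub_zero, mul_one]
            exact h2.conv (isCdf_cdf hM _) (PV_qW hp0 e) _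
        · simp only [if_neg he, mul_zero, sub_zero, mul_one]
          exact (bd_triv ((isCdf_cdf hM _).conv (PV_qW hp0 e) _) hRρ).mono hRρ hx (by linarith))
      (fun y => by simpa only [sub_zero] using cdf_env h hp0 n v y)
    refine h1.mono hRρ (le_of_eq ?_) (le_of_eq ?_)
    · have e1 : ∀ a b : ℝ, a * (x * (1 - ε / 2 * b)) = x * a - x * (ε / 2 * (a * b)) :=
        fun a b => by ring
      simp only [e1, Finset.sum_sub_distrib, ← Finset.mul_sum, hP.sum]
      ring
    · simp only [mul_add, Finset.sum_add_distrib, ← Finset.sum_mul, hP.sum, one_mul]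
  have hσ : ρ / (s * |u|) ≤ 1 := by
    rw [div_le_one (by positivity)]
    rwa [one_div, inv_mul_le_iff₀ hs] at hu
  obtain ⟨A, hA, q, a, b, hq, hS, hab⟩ := h.cut hp hc hR hr (s := ρ / (s * |u|)) (by positivity) hσ
  have h3 := bd_mix (F := cdf μ u) hq.nonneg (fun w => u * b w) (G := fun w => cdf μ (u * a w))
    (fun w => isCdf_cdf hM _) (fun w _ => win (u * a w) (by
      have h4 := (hab w).1
      rw [← mul_div_assoc, div_le_iff₀ (by positivity)] at h4
      rw [abs_mul]
      linarith) (by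
      have h4 := (hab w).2
      rw [le_div_iff₀ (by positivity)] at h4
      rw [abs_mul]
      linarith)) (cdf_expand hS hq.nonneg u)
  rwa [← Finset.sum_mul, ← Finset.sum_mul, hq.sum, one_mul, one_mul] at h3

end Crest.Agent.R98
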