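import Crest.Agent.R98.Env

/-! Row 98: the dichotomy. -/

set_option autoImplicit false

namespace Crest.Agent.R98

open MeasureTheory Finset Real Crest.AnalysisR Filter Topology

variable {ι : Type*} [Fintype ι] {p r t : ι → ℝ} {μ : Measure ℝ}

/-- Typical environments. -/
def typ (χ : ℝ) (n : ℕ) (e : Fin n → ℝ) : Prop := exp (-(χ * n)) ≤ |∏ j, e j|

open Classical in
/-- Weight of the typical environments for which the scale `s` is good. -/
noncomputable def qq (p r t : ι → ℝ) (χ ε : ℝ) (n : ℕ) (s : ℝ) : ℝ :=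
  ∑ e : EW r n, PW p r n e * if typ χ n e then gi (qW p r n e) (wt r t) s ε else 0

open Classical in
/-- Weight of the atypical environments. -/
noncomputable def bad (p r : ι → ℝ) (χ : ℝ) (n : ℕ) : ℝ :=
  ∑ e : EW r n, PW p r n e * if typ χ n e then 0 else 1

theorem bad_tendsto (hp : PV p) (hp0 : ∀ i, 0 < p i) (hr : ∀ i, r i ≠ 0) {ε : ℝ} (hε : 0 < ε) :
    Tendsto (bad p r (lyapunovExp r p + ε)) atTop (𝓝 0) := by
  classical
  obtain ⟨κ, h0, h1, h2⟩ := large_dev hp (fun i => -log |r i|) hε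
  refine squeeze_zero (fun n => Finset.sum_nonneg (fun e _ => mul_nonneg
    ((PV_PW hp hp0 n).nonneg e) (by split_ifs <;> norm_num))) (fun n => le_trans ?_ (h2 n))
    (tendsto_pow_atTop_nhds_zero_of_lt_one h0 h1)
  unfold bad
  rw [sum_PW hp0 (fun e => if typ (lyapunovExp r p + ε) n e then 0 else 1)]
  refine Finset.sum_le_sum (fun w _ => ?_)
  by_cases h : typ (lyapunovExp r p + ε) n (envW r n w)
  · rw [if_pos h, mul_zero]
    split_ifs
    exacts [(wp_pos hp0 w).le, le_rfl]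
  · rw [if_neg h, mul_one, if_pos]
    have h3 : |∏ j, r (w j)| < exp (-((lyapunovExp r p + ε) * n)) := not_le.1 h
    have h4 : 0 < |∏ j, r (w j)| := abs_pos.2 (Finset.prod_ne_zero_iff.2 (fun _ _ => hr _))
    rw [← Real.log_lt_iff_lt_exp h4, Finset.abs_prod,
      Real.log_prod (fun j _ => abs_ne_zero.2 (hr _))] at h3
    simp only [mul_neg, Finset.sum_neg_distrib]
    unfold lyapunovExp at h3
    linarith

theorem sum_range_mul (f : ℕ → ℝ) (L J : ℕ) :
    ∑ k ∈ range (L * J), f k = ∑ i ∈ range L, ∑ m ∈ range J, f (L * m + i) := by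
  induction J with
  | zero => simp
  | succ J ih =>
    rw [Nat.mul_succ, Finset.sum_range_add, ih, ← Finset.sum_add_distrib]
    simp only [Finset.sum_range_succ]

variable [IsProbabilityMeasure μ]

theorem level_step (h : SS μ p r t) (hp : PV p) (hp0 : ∀ i, 0 < p i) {c R : ℝ} (hc : 0 < c)
    (hR : R < 1) (hr : ∀ i, c ≤ |r i| ∧ |r i| ≤ R) {ε R0 Λ x β : ℝ} (hε : 0 ≤ ε) (hR0 : 0 ≤ R0)
    (hx : 0 ≤ x) (hβ : 0 ≤ β) (hΛ : 0 ≤ Λ) (hG : GoodL μ (ε * c) R0 Λ x β) (n : ℕ) {s χ : ℝ}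
    (hs : 0 < s) (hΛs : Λ * s ≤ c * exp (-(χ * n))) {L : ℕ} (hL0 : 0 < L)
    (hL : 1 / 2 ^ L ≤ c ^ (n + 1)) (J : ℕ) {Q : ℝ}
    (hQ : Q * L ≤ ∑ k ∈ range (L * (J + 1)), qq p r t χ ε n (s / 2 ^ (k + 1))) :
    ∃ Λ', 0 ≤ Λ' ∧ GoodL μ (ε * c) R0 Λ' (x * exp (-(ε / 2 * Q))) (β + bad p r χ n) := by
  classical
  have hP := PV_PW (r := r) hp hp0 n
  have hbad : 0 ≤ bad p r χ n := Finset.sum_nonneg (fun e _ => mul_nonneg (hP.nonneg e)
    (by split_ifs <;> norm_num))
  obtain ⟨i, -, hi⟩ : ∃ i ∈ range L,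
      Q ≤ ∑ m ∈ range (J + 1), qq p r t χ ε n (s / 2 ^ (L * m + i + 1)) := by
    rw [sum_range_mul (fun k => qq p r t χ ε n (s / 2 ^ (k + 1)))] at hQ
    refine Finset.exists_le_of_sum_le ⟨0, Finset.mem_range.2 hL0⟩ ?_
    rwa [Finset.sum_const, Finset.card_range, nsmul_eq_mul, mul_comm]
  have key : ∀ m : ℕ, GoodL μ (ε * c) R0 (1 / (s / 2 ^ (L * m + i + 1)))
      (x * exp (-(ε / 2 * ∑ k ∈ range (m + 1), qq p r t χ ε n (s / 2 ^ (L * k + i + 1)))))
      (β + bad p r χ n) := by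
    intro m
    induction m with
    | zero =>
      have h1 := block_step h hp hp0 hc hR hr hε hR0 hx hβ hG n
        (s := s / 2 ^ (L * 0 + i + 1)) (by positivity) (typ χ n) (fun e he => by
          refine le_trans ?_ (hΛs.trans (mul_le_mul_of_nonneg_left he hc.le))
          exact mul_le_mul_of_nonneg_left (div_le_self hs.le (one_le_pow₀ one_le_two)) hΛ)
      refine h1.mono hR0 (mul_le_mul_of_nonneg_left ?_ hx) le_rfl
      rw [Finset.sum_range_one]
      exact Real.one_sub_le_exp_neg _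
    | succ m ih =>
      have h1 := block_step h hp hp0 hc hR hr hε hR0 (mul_nonneg hx (exp_pos _).le)
        (add_nonneg hβ hbad) ih n (s := s / 2 ^ (L * (m + 1) + i + 1)) (by positivity)
        (fun _ => True) (fun e _ => by
          obtain ⟨w, -, hw⟩ := Finset.mem_image.1 e.2
          have h2 : c ^ n ≤ |∏ j, e.1 j| := by
            rw [← hw, Finset.abs_prod]
            have := Finset.prod_le_prod (s := Finset.univ) (f := fun _ : Fin n => c)
              (g := fun j => |envW r n w j|) (fun _ _ => hc.le) (fun j _ => (hr _).1)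
            simpa using this
          have h3 : 1 / (s / 2 ^ (L * m + i + 1)) * (s / 2 ^ (L * (m + 1) + i + 1)) =
              1 / 2 ^ L := by
            rw [show L * (m + 1) + i + 1 = L * m + i + 1 + L by ring, pow_add _ _ L]
            field_simp
          rw [h3]
          refine hL.trans ?_
          rw [pow_succ']
          exact mul_le_mul_of_nonneg_left h2 hc.le)
      refine h1.mono hR0 ?_ (by simp)
      rw [Finset.sum_range_succ _ (m + 1), mul_add (ε / 2), neg_add, Real.exp_add, ← mul_assoc]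
      refine mul_le_mul_of_nonneg_left (le_trans ?_ (Real.one_sub_le_exp_neg _))
        (mul_nonneg hx (exp_pos _).le)
      refine sub_le_sub_left (mul_le_mul_of_nonneg_left (Finset.sum_le_sum (fun e _ =>
        mul_le_mul_of_nonneg_left ?_ (hP.nonneg e))) (by linarith)) 1
      rw [if_pos trivial]
      split_ifs
      exacts [le_rfl, gi_nonneg _ _ _ _]
  refine ⟨_, by positivity, (key J).mono hR0 (mul_le_mul_of_nonneg_left ?_ hx) le_rfl⟩
  exact Real.exp_le_exp.2 (neg_le_neg (mul_le_mul_of_nonneg_left hi (by linarith)))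

theorem flat_of_levels {M : ℝ} (hM : μ {x | M < |x|} = 0) {δ0 θ η : ℝ} (hδ : 0 < δ0)
    (hθ0 : 0 ≤ θ) (hθ : θ < 1) (hη : 0 < η)
    (hlev : ∀ R0 Λ x β β' : ℝ, 0 ≤ R0 → 0 ≤ Λ → 0 ≤ x → 0 ≤ β → 0 < β' →
      GoodL μ δ0 R0 Λ x β → ∃ Λ', 0 ≤ Λ' ∧ GoodL μ δ0 R0 Λ' (x * θ) (β + β')) :
    ∃ s0 : ℝ, 0 < s0 ∧ ∀ s, 0 < s → s ≤ s0 →
      (1 - η) * log 2 ≤ Hs (cdf μ 1) s - Hs (cdf μ 1) (2 * s) := by
  set R0 : ℝ := 16 / η with hR0
  have hR : 0 < R0 := by positivity
  obtain ⟨m, hm⟩ := exists_nat_gt (4 * R0 / (δ0 * η))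
  have hm0 : (0 : ℝ) < m := lt_trans (by positivity) hm
  have hm1 : 0 < m := by exact_mod_cast hm0
  have base : GoodL μ δ0 R0 0 (2 ^ (3 * m ^ 4)) (η / 2) := by
    intro ρ hρ u _
    refine (bd_base (isCdf_cdf hM u) (mul_pos hR hρ) (mul_pos hδ hρ) hρ hm1 le_rfl).mono
      (mul_pos hR hρ).le le_rfl ?_
    have h1 : 4 * ρ / (R0 * ρ) = η / 4 := by
      rw [hR0]
      field_simp
      norm_num
    have h2 : R0 * ρ / (δ0 * ρ * m) ≤ η / 4 := by
      rw [div_lt_iff₀ (by positivity)] at hm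
      rw [div_le_iff₀ (by positivity)]
      nlinarith [mul_le_mul_of_nonneg_left hm.le hρ.le]
    linarith
  obtain ⟨I, hI⟩ := exists_pow_lt_of_lt_one (show 0 < η / 4 / 2 ^ (3 * m ^ 4) by positivity) hθ
  rw [lt_div_iff₀ (by positivity)] at hI
  have key : ∀ i : ℕ, ∃ Λ, 0 ≤ Λ ∧ GoodL μ δ0 R0 Λ (2 ^ (3 * m ^ 4) * θ ^ i)
      (η / 2 + i * (η / 4 / (I + 1))) := by
    intro i
    induction i with
    | zero => exact ⟨0, le_rfl, by simpa using base⟩
    | succ i ih =>
      obtain ⟨Λ, h1, h2⟩ := ih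
      obtain ⟨Λ', h3, h4⟩ := hlev _ _ _ _ (η / 4 / (I + 1)) hR.le h1 (by positivity)
        (by positivity) (by positivity) h2
      refine ⟨Λ', h3, h4.mono hR.le (le_of_eq (by ring)) (le_of_eq ?_)⟩
      push_cast
      ring
  obtain ⟨Λ, h1, h2⟩ := key I
  refine ⟨R0 / (Λ + 1), by positivity, fun s hs hs0 => ?_⟩
  have h3 := h2 (s / R0) (by positivity) 1 (by
    rw [le_div_iff₀ (by positivity)] at hs0
    rw [abs_one, ← mul_div_assoc, div_le_one hR]
    nlinarith)
  rw [mul_div_cancel₀ _ hR.ne'] at h3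
  refine le_trans (mul_le_mul_of_nonneg_right ?_ (Real.log_nonneg one_le_two))
    (h3.inc (isCdf_cdf hM 1) hs)
  have h4 : (I : ℝ) * (η / 4 / (I + 1)) ≤ η / 4 := by
    rw [← mul_div_assoc, div_le_iff₀ (by positivity)]
    nlinarith
  linarith

omit [IsProbabilityMeasure μ] in
theorem entropy_of_flat {F : ℝ → ℝ} (hF : IsCdf F) {α η s0 : ℝ} (hα : α < 1 - η) (hs0 : 0 < s0)
    (h : ∀ s, 0 < s → s ≤ s0 → (1 - η) * log 2 ≤ Hs F s - Hs F (2 * s)) {ρ₁ : ℝ} (hρ : 0 < ρ₁) :
    ∃ ρ : ℝ, 0 < ρ ∧ ρ ≤ ρ₁ ∧ α * log (1 / ρ) ≤ Hs F ρ := by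
  have hl : 0 < log 2 := Real.log_pos one_lt_two
  have h1 : ∀ k : ℕ, k * ((1 - η) * log 2) ≤ Hs F (s0 / 2 ^ k) := by
    intro k
    induction k with
    | zero => simpa using hF.Hs_nonneg hs0.le
    | succ k ih =>
      have h2 := h (s0 / 2 ^ (k + 1)) (by positivity) (div_le_self hs0.le (one_le_pow₀ one_le_two))
      rw [show 2 * (s0 / 2 ^ (k + 1)) = s0 / 2 ^ k by rw [pow_succ]; field_simp] at h2
      push_cast
      linarith
  obtain ⟨k1, hk1⟩ := pow_unbounded_of_one_lt (s0 / ρ₁) (one_lt_two (α := ℝ))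
  obtain ⟨k2, hk2⟩ := exists_nat_gt (-(α * log s0) / ((1 - η - α) * log 2))
  refine ⟨s0 / 2 ^ (k1 + k2), by positivity, ?_, le_trans ?_ (h1 _)⟩
  · rw [div_lt_iff₀ hρ] at hk1
    rw [div_le_iff₀ (by positivity), mul_comm]
    exact hk1.le.trans (mul_le_mul_of_nonneg_right
      (pow_le_pow_right₀ one_le_two (Nat.le_add_right _ _)) hρ.le)
  · have h3 : 0 < (1 - η - α) * log 2 := mul_pos (by linarith) hl
    rw [div_lt_iff₀ h3] at hk2
    rw [one_div_div, Real.log_div (by positivity) hs0.ne', Real.log_pow]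
    push_cast
    nlinarith [mul_nonneg (Nat.cast_nonneg (α := ℝ) k1) h3.le]

/-- The conditional entropy of the translation part given the ratios. -/
noncomputable def HW (p r t : ι → ℝ) (n : ℕ) : ℝ :=
  ∑ e : EW r n, PW p r n e * -∑ w, qW p r n e w *
    log (∑ v, if wt r t v = wt r t w then qW p r n e v else 0)

theorem entropy_case2 (h : SS μ p r t) (hp : PV p) (hp0 : ∀ i, 0 < p i) {M : ℝ}
    (hM : μ {x | M < |x|} = 0) (χ : ℝ) (n : ℕ) {s : ℝ} (hs : 0 < s) {j : ℕ} (hj : 1 ≤ j) (K : ℕ)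
    (hK : ∀ v w : Fin n → ι, wt r t v ≠ wt r t w → s / 2 ^ K ≤ |wt r t v - wt r t w|) :
    HW p r t n ≤ Hs (cdf μ 1) s +
      (∑ k ∈ range K, qq p r t χ (1 / 4 ^ j) n (s / 2 ^ (k + 1)) +
        bad p r χ n * (74 * (j + 1) * (n * Fintype.card ι))) * log 2 +
      444 * (n * Fintype.card ι) * ((2 * j + 6) / 2 ^ j) := by
  classical
  have hP := PV_PW (r := r) hp hp0 n
  have hl : 0 ≤ log 2 := Real.log_nonneg one_le_two
  have h1 : ∑ e : EW r n, PW p r n e * Hs (conv (qW p r n e) (wt r t) heav) s ≤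
      Hs (cdf μ 1) s := by
    have e1 : cdf μ 1 = fun y => ∑ e : EW r n, PW p r n e *
        conv (qW p r n e) (wt r t) (cdf μ (∏ j, e.1 j)) y := by
      funext y
      simpa only [one_mul] using cdf_env h hp0 n 1 y
    rw [e1]
    refine le_trans (Finset.sum_le_sum (fun e _ => mul_le_mul_of_nonneg_left
      (Hs_conv_le hM (PV_qW hp0 e) _ (∏ j, e.1 j) hs) (hP.nonneg e))) ?_
    exact Hs_mix hP (fun e => (isCdf_cdf hM _).conv (PV_qW hp0 e) _) hs
  have h2 : ∀ e : EW r n, -∑ w, qW p r n e w *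
      log (∑ v, if wt r t v = wt r t w then qW p r n e v else 0) ≤
      Hs (conv (qW p r n e) (wt r t) heav) s +
        (∑ k ∈ range K, (if typ χ n e then gi (qW p r n e) (wt r t) (s / 2 ^ (k + 1)) (1 / 4 ^ j)
          else 0) + (if typ χ n e then 0 else 1) * (74 * (j + 1) * (n * Fintype.card ι))) * log 2 +
        444 * (n * Fintype.card ι) * ((2 * j + 6) / 2 ^ j) := by
    intro e
    obtain ⟨c, hc⟩ := gen_qW (p := p) (r := r) (t := t) n e
    have h3 := entropy_split (PV_qW hp0 e) hc hs hj K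
    have h4 := count (PV_qW hp0 e) hc hs j K
    rw [Hs_exact _ _ (by positivity) hK] at h3
    simp only [Fintype.card_prod, Fintype.card_fin, Nat.cast_mul] at h3 h4
    refine h3.trans (add_le_add_left (add_le_add_right (mul_le_mul_of_nonneg_right ?_ hl) _) _)
    by_cases he : typ χ n e
    · simp only [if_pos he, zero_mul, add_zero, le_refl]
    · simpa only [if_neg he, Finset.sum_const_zero, zero_add, one_mul] using h4
  have h5 := Finset.sum_le_sum (fun e (_ : e ∈ Finset.univ) =>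
    mul_le_mul_of_nonneg_left (h2 e) (hP.nonneg e))
  refine le_trans h5 ?_
  simp only [mul_add (PW p r n _), Finset.sum_add_distrib, ← mul_assoc (PW p r n _),
    ← Finset.sum_mul, hP.sum, one_mul, Finset.mul_sum (range K)]
  rw [Finset.sum_comm]
  exact add_le_add_left (add_le_add_left h1 _) _

theorem entropy_lower (h : SS μ p r t) (hp : PV p) (hp0 : ∀ i, 0 < p i) {c R : ℝ} (hc : 0 < c)
    (hR : R < 1) (hr : ∀ i, c ≤ |r i| ∧ |r i| ≤ R) {h' α : ℝ}
    (hh : ∀ n : ℕ, 1 ≤ n → h' * n ≤ HW p r t n) (hα1 : α < 1)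
    (hα2 : α * lyapunovExp r p < h') (ρ₁ : ℝ) (hρ : 0 < ρ₁) :
    ∃ ρ : ℝ, 0 < ρ ∧ ρ ≤ ρ₁ ∧ α * log (1 / ρ) ≤ Hs (cdf μ 1) ρ := by
  classical
  obtain ⟨M, -, hM⟩ := h.support hp hc hR hr
  set χ := lyapunovExp r p with hχ
  have hχ0 : 0 ≤ χ := neg_nonneg.2 (Finset.sum_nonpos (fun i _ => mul_nonpos_of_nonneg_of_nonpos
    (hp0 i).le (Real.log_nonpos (abs_nonneg _) ((hr i).2.trans hR.le))))
  set g := (h' - α * χ) / 4 with hg
  have hg0 : 0 < g := by rw [hg]; linarith
  set D : ℝ := (Fintype.card ι : ℝ) with hD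
  have hD0 : 0 ≤ D := Nat.cast_nonneg _
  obtain ⟨j, hj1, hj⟩ : ∃ j : ℕ, 1 ≤ j ∧ 444 * D * ((2 * j + 6) / 2 ^ j) ≤ g := by
    have t1 := tendsto_pow_const_div_const_pow_of_one_lt 1 (one_lt_two (α := ℝ))
    have t0 := tendsto_pow_const_div_const_pow_of_one_lt 0 (one_lt_two (α := ℝ))
    have t2 := ((t1.const_mul 2).add (t0.const_mul 6)).const_mul (444 * D)
    simp only [mul_zero, add_zero] at t2
    obtain ⟨j, h1, h2⟩ := ((eventually_ge_atTop 1).and (t2.eventually (ge_mem_nhds hg0))).exists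
    refine ⟨j, h1, le_of_eq_of_le ?_ h2⟩
    ring
  obtain ⟨L0, hL0⟩ := exists_pow_lt_of_lt_one hc (show (1 / 2 : ℝ) < 1 by norm_num)
  let L : ℕ → ℕ := fun n => (L0 + 1) * (n + 1)
  have hL : ∀ n, (1 : ℝ) / 2 ^ L n ≤ c ^ (n + 1) := by
    intro n
    rw [← one_div_pow, pow_mul]
    refine pow_le_pow_left₀ (by positivity) (le_trans ?_ hL0.le) _
    exact pow_le_pow_of_le_one (by norm_num) (by norm_num) (Nat.le_succ _)
  let s : ℕ → ℝ := fun n => exp (-((χ + g) * n))
  have hs : ∀ n, 0 < s n := fun n => exp_pos _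
  have hJ : ∀ n, ∃ J : ℕ, ∀ v w : Fin n → ι, wt r t v ≠ wt r t w →
      s n / 2 ^ (L n * (J + 1)) ≤ |wt r t v - wt r t w| := by
    intro n
    have h1 : ∀ᶠ J : ℕ in atTop, ∀ v w : Fin n → ι, wt r t v ≠ wt r t w →
        s n / 2 ^ J ≤ |wt r t v - wt r t w| := by
      refine eventually_all.2 (fun v => eventually_all.2 (fun w => ?_))
      by_cases h2 : wt r t v = wt r t w
      · exact Eventually.of_forall (fun _ h3 => absurd h2 h3)
      · have t0 := (tendsto_pow_const_div_const_pow_of_one_lt 0 (one_lt_two (α := ℝ))).const_mul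
          (s n)
        rw [mul_zero] at t0
        filter_upwards [t0.eventually (ge_mem_nhds (abs_pos.2 (sub_ne_zero.2 h2)))] with J hJ _
        simpa [div_eq_mul_inv] using hJ
    obtain ⟨J, hJ⟩ := h1.exists
    refine ⟨J, fun v w h2 => le_trans (div_le_div_of_nonneg_left (hs n).le (by positivity)
      (pow_le_pow_right₀ one_le_two ?_)) (hJ v w h2)⟩
    have : 1 ≤ L n := Nat.mul_pos (Nat.succ_pos _) (Nat.succ_pos _)
    nlinarith
  choose J hJ using hJ
  have hbad := bad_tendsto hp hp0 (fun i => abs_pos.1 (hc.trans_le (hr i).1)) (half_pos hg0)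
  rw [← hχ] at hbad
  have hexp : Tendsto (fun n : ℕ => exp (-(g / 2 * n))) atTop (𝓝 0) :=
    Real.tendsto_exp_neg_atTop_nhds_zero.comp
      (tendsto_natCast_atTop_atTop.const_mul_atTop (half_pos hg0))
  have hsn : ∀ n : ℕ, s n = exp (-(g / 2 * n)) * exp (-((χ + g / 2) * n)) := fun n => by
    rw [← Real.exp_add]
    exact congrArg exp (by ring)
  by_cases hcase : ∀ᶠ n : ℕ in atTop, g * n ≤
      ∑ k ∈ range (L n * (J n + 1)), qq p r t (χ + g / 2) (1 / 4 ^ j) n (s n / 2 ^ (k + 1))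
  · obtain ⟨s0, hs0, hflat⟩ := flat_of_levels hM (δ0 := 1 / 4 ^ j * c)
      (θ := exp (-(1 / 4 ^ j / 2 * (g / (2 * (L0 + 1)))))) (η := (1 - α) / 2) (by positivity)
      (exp_pos _).le (Real.exp_lt_one_iff.2 (neg_lt_zero.2 (by positivity))) (by linarith)
      (fun R0 Λ x β β' hR0 hΛ hx hβ hβ' hG => by
        have t1 := hexp.const_mul Λ
        rw [mul_zero] at t1
        obtain ⟨n, h1, h2, h3, h4⟩ := ((eventually_ge_atTop 1).and (hcase.and
          ((hbad.eventually (ge_mem_nhds hβ')).and (t1.eventually (ge_mem_nhds hc))))).exists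
        obtain ⟨Λ', h5, h6⟩ := level_step h hp hp0 hc hR hr (by positivity) hR0 hx hβ hΛ hG n
          (hs n) (χ := χ + g / 2) (by
            rw [hsn, ← mul_assoc]
            exact mul_le_mul_of_nonneg_right h4 (exp_pos _).le) (L := L n)
          (Nat.mul_pos (Nat.succ_pos _) (Nat.succ_pos _)) (hL n) (J n)
          (Q := g / (2 * (L0 + 1))) (le_trans (by
            have h7 : (1 : ℝ) ≤ n := by exact_mod_cast h1
            have h8 : g / (2 * (L0 + 1)) * (L n : ℕ) = g * ((n + 1) / 2) := by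
              simp only [L]
              push_cast
              field_simp
            rw [h8]
            exact mul_le_mul_of_nonneg_left (by linarith) hg0.le) h2)
        exact ⟨Λ', h5, h6.mono hR0 le_rfl (by linarith)⟩)
    exact entropy_of_flat (isCdf_cdf hM 1) (by linarith) hs0 hflat hρ
  · have t1 := hbad.mul_const (74 * (j + 1) * D)
    rw [zero_mul] at t1
    obtain ⟨n, h1, h2, h3, h4⟩ := ((not_eventually.1 hcase).and_eventually
      ((eventually_ge_atTop 1).and ((t1.eventually (ge_mem_nhds hg0)).and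
        (hexp.eventually (ge_mem_nhds hρ))))).exists
    have hn : (0 : ℝ) ≤ n := Nat.cast_nonneg n
    refine ⟨s n, hs n, ?_, ?_⟩
    · rw [hsn]
      refine le_trans (mul_le_of_le_one_right (exp_pos _).le (Real.exp_le_one_iff.2 ?_)) h4
      exact neg_nonpos.2 (by positivity)
    · have h5 := entropy_case2 h hp hp0 hM (χ + g / 2) n (hs n) hj1 _ (hJ n)
      have h6 := hh n h2
      have h7 : log (1 / s n) = (χ + g) * n := by
        rw [one_div, Real.log_inv, Real.log_exp, neg_neg]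
      have h8 : log 2 ≤ 1 := by linarith [Real.log_le_sub_one_of_pos (show (0 : ℝ) < 2 by norm_num)]
      have h9 := mul_le_mul_of_nonneg_right h3 hn
      have h10 := mul_le_mul_of_nonneg_right hj hn
      have h11 := mul_le_mul (show ∑ k ∈ range (L n * (J n + 1)),
          qq p r t (χ + g / 2) (1 / 4 ^ j) n (s n / 2 ^ (k + 1)) +
          bad p r (χ + g / 2) n * (74 * (j + 1) * (n * D)) ≤ 2 * (g * n) by
            linarith [not_le.1 h1]) h8 (Real.log_nonneg one_le_two) (by positivity)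
      have h12 := mul_le_mul_of_nonneg_right hα1.le (mul_nonneg hg0.le hn)
      have h13 : h' = α * χ + 4 * g := by rw [hg]; ring
      rw [h7]
      rw [h13] at h6
      rw [← hD] at h5
      linarith

end Crest.Agent.R98
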